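import Mathlib

/-! P015: discs without Gaussian primes centred at values of polynomials over `ℤ[i]`. -/

namespace Vale.Agent.P015.Curve

open Polynomial Filter

/-- integer values of a nonconstant polynomial over `ℤ[i]` are eventually large -/
theorem norm_large (g : Polynomial GaussianInt) (hg : 0 < g.natDegree) (B : ℤ) :
    ∃ T : ℤ, ∀ t : ℤ, T ≤ t → B < Zsqrtd.norm (g.eval (t : GaussianInt)) := by
  set gc : Polynomial ℂ := g.map GaussianInt.toComplex with hgc
  have hdeg : 0 < gc.degree := by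
    rw [hgc, Polynomial.degree_map_eq_of_injective GaussianInt.toComplex_injective]
    exact Polynomial.natDegree_pos_iff_degree_pos.1 hg
  have hz : Tendsto (fun t : ℤ => ‖((t : ℤ) : ℂ)‖) atTop atTop := by
    have h : (fun t : ℤ => ‖((t : ℤ) : ℂ)‖) = fun t : ℤ => |(t : ℝ)| := by
      funext t; exact Complex.norm_intCast t
    rw [h]
    exact tendsto_abs_atTop_atTop.comp tendsto_intCast_atTop_atTop
  have h1 := Polynomial.tendsto_norm_atTop gc hdeg hz
  obtain ⟨T, hT⟩ := eventually_atTop.1 (h1.eventually_gt_atTop (|(B : ℝ)| + 1))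
  refine ⟨T, fun t ht => ?_⟩
  have h2 := hT t ht
  have h3 : gc.eval ((t : ℤ) : ℂ) = ((g.eval (t : GaussianInt) : GaussianInt) : ℂ) := by
    rw [hgc, ← map_intCast GaussianInt.toComplex t, Polynomial.eval_map,
      Polynomial.eval₂_at_apply]
  rw [h3] at h2
  have h4 : ((Zsqrtd.norm (g.eval (t : GaussianInt)) : ℤ) : ℝ) =
      ‖((g.eval (t : GaussianInt) : GaussianInt) : ℂ)‖ ^ 2 := by
    rw [GaussianInt.intCast_real_norm, Complex.normSq_eq_norm_sq]
  have h5 : (B : ℝ) < ((Zsqrtd.norm (g.eval (t : GaussianInt)) : ℤ) : ℝ) := by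
    rw [h4]
    have h6 := le_abs_self (B : ℝ)
    have h7 := abs_nonneg (B : ℝ)
    nlinarith
  exact_mod_cast h5

/-- a divisor of an integer value whose norm is coprime to `M` -/
theorem step (g : Polynomial GaussianInt) (hg : 0 < g.natDegree) (M : ℤ) (hM : 0 < M) :
    ∃ (t : ℤ) (u : GaussianInt), u ∣ g.eval (t : GaussianInt) ∧ 1 < Zsqrtd.norm u ∧
      IsCoprime (Zsqrtd.norm u) M := by
  obtain ⟨t1, ht1⟩ := norm_large g hg 0
  set c : GaussianInt := g.eval ((t1 : ℤ) : GaussianInt) with hc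
  have hc0 : 0 < Zsqrtd.norm c := ht1 t1 le_rfl
  obtain ⟨T, hT⟩ := norm_large g hg (Zsqrtd.norm c)
  set s : ℤ := |T| + |t1| with hs
  have hs0 : 0 ≤ s := by positivity
  set t : ℤ := t1 + Zsqrtd.norm c * M * s with ht
  have htT : T ≤ t := by
    have h1 : 1 ≤ Zsqrtd.norm c * M := by
      have : 0 < Zsqrtd.norm c * M := mul_pos hc0 hM
      omega
    have h2 : s ≤ Zsqrtd.norm c * M * s := le_mul_of_one_le_left hs0 h1
    have h3 := le_abs_self T
    have h4 := neg_abs_le t1
    omega
  have hdvd := Polynomial.sub_dvd_eval_sub ((t : ℤ) : GaussianInt) ((t1 : ℤ) : GaussianInt) g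
  obtain ⟨h, hh⟩ := hdvd
  have hnc : ((Zsqrtd.norm c : ℤ) : GaussianInt) = c * star c := Zsqrtd.norm_eq_mul_conj c
  set α : GaussianInt := star c * (s : GaussianInt) * h with hα
  have hval : g.eval ((t : ℤ) : GaussianInt) = (1 + (M : GaussianInt) * α) * c := by
    have e1 : ((t : ℤ) : GaussianInt) - ((t1 : ℤ) : GaussianInt) =
        c * star c * (M : GaussianInt) * (s : GaussianInt) := by
      rw [ht]; push_cast; rw [hnc]; ring
    rw [e1] at hh
    have e2 : g.eval ((t : ℤ) : GaussianInt) = c + (g.eval ((t : ℤ) : GaussianInt) - c) := by ring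
    rw [e2, hh, hα]; ring
  refine ⟨t, 1 + (M : GaussianInt) * α, ⟨c, hval⟩, ?_, ?_⟩
  · have h1 := hT t htT
    rw [hval, Zsqrtd.norm_mul] at h1
    by_contra hcon
    push Not at hcon
    have : Zsqrtd.norm (1 + (M : GaussianInt) * α) * Zsqrtd.norm c ≤ 1 * Zsqrtd.norm c :=
      mul_le_mul_of_nonneg_right hcon hc0.le
    omega
  · have hn : Zsqrtd.norm (1 + (M : GaussianInt) * α) =
        1 + M * (2 * α.re + M * (α.re * α.re + α.im * α.im)) := by
      rw [Zsqrtd.norm_def]
      have e1 : (1 + (M : GaussianInt) * α).re = 1 + M * α.re := by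
        simp
      have e2 : (1 + (M : GaussianInt) * α).im = M * α.im := by
        simp
      rw [e1, e2]; ring
    rw [hn]
    exact ⟨1, -(2 * α.re + M * (α.re * α.re + α.im * α.im)), by ring⟩

/-- simultaneous divisors for a finite set of shifts -/
theorem family (f : Polynomial GaussianInt) (hf : 0 < f.natDegree) (W : Finset GaussianInt) :
    ∃ t P : ℤ, 0 < P ∧ ∀ t' : ℤ, P ∣ t' - t → ∀ w ∈ W, ∃ u : GaussianInt,
      u ∣ f.eval (t' : GaussianInt) + w ∧ 1 < Zsqrtd.norm u ∧ Zsqrtd.norm u ≤ P := by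
  classical
  induction W using Finset.induction_on with
  | empty => exact ⟨0, 1, one_pos, fun t' _ w hw => absurd hw (Finset.notMem_empty w)⟩
  | insert w W _ ih =>
    obtain ⟨t, P, hP, h⟩ := ih
    have hg : 0 < (f + C w).natDegree := by rw [Polynomial.natDegree_add_C]; exact hf
    obtain ⟨t1, u, hu, hu1, hcop⟩ := step (f + C w) hg P hP
    obtain ⟨x, y, hxy⟩ := hcop
    -- `t' = t1 * y * P + t * x * norm u`
    set n := Zsqrtd.norm u with hn
    refine ⟨t1 * (y * P) + t * (x * n), P * n, mul_pos hP (by omega), ?_⟩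
    intro t' ht' v hv
    have hd1 : P ∣ t' - t := by
      have e : t' - t = (t' - (t1 * (y * P) + t * (x * n))) + P * (y * (t1 - t)) := by
        have : x * n = 1 - y * P := by linarith
        rw [this]; ring
      rw [e]
      exact dvd_add ((dvd_mul_right P n).trans ht') (dvd_mul_right P _)
    have hd2 : n ∣ t' - t1 := by
      have e : t' - t1 = (t' - (t1 * (y * P) + t * (x * n))) + n * (x * (t - t1)) := by
        have : y * P = 1 - x * n := by linarith
        rw [this]; ring
      rw [e]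
      exact dvd_add ((dvd_mul_left n P).trans ht') (dvd_mul_right n _)
    rcases Finset.mem_insert.1 hv with rfl | hv
    · refine ⟨u, ?_, hu1, ?_⟩
      · have h1 := Polynomial.sub_dvd_eval_sub ((t' : ℤ) : GaussianInt)
          ((t1 : ℤ) : GaussianInt) (f + C v)
        have h2 : u ∣ ((t' : ℤ) : GaussianInt) - ((t1 : ℤ) : GaussianInt) := by
          obtain ⟨k, hk⟩ := hd2
          have e : ((t' : ℤ) : GaussianInt) - ((t1 : ℤ) : GaussianInt) =
              u * (star u * (k : GaussianInt)) := by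
            rw [← Int.cast_sub, hk, Int.cast_mul, hn, Zsqrtd.norm_eq_mul_conj]; ring
          exact ⟨_, e⟩
        have h3 := dvd_add (h2.trans h1) hu
        have e : (f + C v).eval ((t' : ℤ) : GaussianInt) - (f + C v).eval ((t1 : ℤ) : GaussianInt)
            + (f + C v).eval ((t1 : ℤ) : GaussianInt) = f.eval ((t' : ℤ) : GaussianInt) + v := by
          rw [sub_add_cancel, Polynomial.eval_add, Polynomial.eval_C]
        rw [e] at h3
        exact h3
      · have : 1 * n ≤ P * n := mul_le_mul_of_nonneg_right hP (by omega)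
        omega
    · obtain ⟨u', a1, a2, a3⟩ := h t' hd1 v hv
      refine ⟨u', a1, a2, a3.trans ?_⟩
      have : P * 1 ≤ P * n := mul_le_mul_of_nonneg_left hu1.le hP.le
      omega

theorem small_finite (R : ℤ) : ∃ W : Finset GaussianInt, ∀ w : GaussianInt,
    Zsqrtd.norm w ≤ R → w ∈ W := by
  classical
  refine ⟨((Finset.Icc (-R) R) ×ˢ (Finset.Icc (-R) R)).image
    (fun x : ℤ × ℤ => (⟨x.1, x.2⟩ : GaussianInt)), fun w hw => ?_⟩
  rw [Zsqrtd.norm_def] at hw
  have h1 : w.re * w.re ≤ R := by nlinarith [mul_self_nonneg w.im]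
  have h2 : w.im * w.im ≤ R := by nlinarith [mul_self_nonneg w.re]
  have key : ∀ a : ℤ, a * a ≤ R → -R ≤ a ∧ a ≤ R := by
    intro a ha
    constructor
    · rcases le_or_gt 0 a with h | h
      · nlinarith [mul_self_nonneg a]
      · nlinarith
    · rcases le_or_gt a 0 with h | h
      · nlinarith [mul_self_nonneg a]
      · nlinarith
  refine Finset.mem_image.2 ⟨(w.re, w.im), ?_, rfl⟩
  rw [Finset.mem_product, Finset.mem_Icc, Finset.mem_Icc]
  exact ⟨key _ h1, key _ h2⟩

/-- for every nonconstant polynomial `f` over `ℤ[i]` there are arbitrarily large integers `t`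
such that the disc of radius `√R` around `f(t)` contains no Gaussian prime -/
theorem discs (f : Polynomial GaussianInt) (hf : 0 < f.natDegree) (R N : ℤ) :
    ∃ t : ℤ, N ≤ t ∧ ∀ z : GaussianInt, Zsqrtd.norm (z - f.eval (t : GaussianInt)) ≤ R →
      ¬ Irreducible z := by
  obtain ⟨W, hW⟩ := small_finite R
  obtain ⟨t0, P, hP, h⟩ := family f hf W
  have hT : ∀ w : GaussianInt, ∃ T : ℤ, ∀ t : ℤ, T ≤ t →
      P < Zsqrtd.norm (f.eval (t : GaussianInt) + w) := by
    intro w
    have hg : 0 < (f + C w).natDegree := by rw [Polynomial.natDegree_add_C]; exact hf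
    obtain ⟨T, hT⟩ := norm_large (f + C w) hg P
    refine ⟨T, fun t ht => ?_⟩
    have := hT t ht
    rwa [Polynomial.eval_add, Polynomial.eval_C] at this
  choose T hT using hT
  have hmax : ∃ T1 : ℤ, ∀ w ∈ W, T w ≤ T1 := by
    classical
    refine ⟨∑ w ∈ W, |T w|, fun w hw => (le_abs_self _).trans ?_⟩
    exact Finset.single_le_sum (f := fun w => |T w|) (fun _ _ => abs_nonneg _) hw
  obtain ⟨T1, hT1⟩ := hmax
  -- a large `t` congruent to `t0` modulo `P`
  set s : ℤ := |N| + |T1| + |t0| with hs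
  have hs0 : 0 ≤ s := by positivity
  have hPs : s ≤ P * s := le_mul_of_one_le_left hs0 hP
  have b1 := le_abs_self N
  have b2 := le_abs_self T1
  have b3 := neg_abs_le t0
  have b4 := abs_nonneg N
  have b5 := abs_nonneg T1
  refine ⟨t0 + P * s, by omega, ?_⟩
  intro z hz hirr
  set t := t0 + P * s with ht
  set w : GaussianInt := z - f.eval (t : GaussianInt) with hw
  have hwW : w ∈ W := hW w hz
  obtain ⟨u, hu, hu1, hu2⟩ := h t ⟨s, by rw [ht]; ring⟩ w hwW
  have hzz : f.eval (t : GaussianInt) + w = z := by rw [hw]; ring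
  rw [hzz] at hu
  have hbig : P < Zsqrtd.norm z := by
    have := hT w t (by have := hT1 w hwW; omega)
    rwa [hzz] at this
  obtain ⟨v, hv⟩ := hu
  have hunit := hirr.isUnit_or_isUnit hv
  rcases hunit with hU | hV
  · have h1 := (Zsqrtd.norm_eq_one_iff' (by norm_num) u).2 hU
    omega
  · have h1 := (Zsqrtd.norm_eq_one_iff' (by norm_num) v).2 hV
    rw [hv, Zsqrtd.norm_mul, h1, mul_one] at hbig
    omega

end Vale.Agent.P015.Curve
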