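import Mathlib

/-!
# P015: a bounded-step walk inside a tube around a polynomial curve hits every far point of it
-/

namespace Vale.Agent.P015

open Filter Topology

/-- `q(t) / t^m` tends to the coefficient of `X^m` when `deg q ≤ m`. -/
theorem tube_coeff_tendsto (q : Polynomial ℂ) (m : ℕ) (hm : q.natDegree ≤ m) :
    Tendsto (fun t : ℝ => q.eval (t : ℂ) / (t : ℂ) ^ m) atTop (𝓝 (q.coeff m)) := by
  have h1 : ∀ t : ℝ, q.eval (t : ℂ) / (t : ℂ) ^ m
      = ∑ i ∈ Finset.range (m + 1), q.coeff i * ((t : ℂ) ^ i / (t : ℂ) ^ m) := by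
    intro t
    rw [Polynomial.eval_eq_sum_range' (Nat.lt_succ_of_le hm), Finset.sum_div]
    refine Finset.sum_congr rfl fun i _ => ?_
    rw [mul_div_assoc]
  have h2 : q.coeff m = ∑ i ∈ Finset.range (m + 1), q.coeff i * (if i = m then 1 else 0) := by
    simp
  rw [h2]
  refine Tendsto.congr (fun t => (h1 t).symm) ?_
  refine tendsto_finsetSum _ fun i hi => ?_
  refine Tendsto.const_mul _ ?_
  have him : i ≤ m := Nat.lt_succ_iff.mp (Finset.mem_range.mp hi)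
  by_cases h : i = m
  · subst h
    simp only [if_true]
    refine Tendsto.congr' ?_ tendsto_const_nhds
    filter_upwards [eventually_gt_atTop (0 : ℝ)] with t ht
    rw [div_self]
    exact pow_ne_zero _ (by exact_mod_cast ht.ne')
  · simp only [h, if_false]
    rw [tendsto_zero_iff_norm_tendsto_zero]
    have h3 : ∀ᶠ t : ℝ in atTop, t ^ i / t ^ m = ‖(t : ℂ) ^ i / (t : ℂ) ^ m‖ := by
      filter_upwards [eventually_gt_atTop (0 : ℝ)] with t ht
      rw [norm_div, norm_pow, norm_pow, Complex.norm_real, Real.norm_of_nonneg ht.le]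
    refine Tendsto.congr' h3 ?_
    exact tendsto_pow_div_pow_atTop_zero (lt_of_le_of_ne him h)

/-- Domination of the derivative: for large `t`, `|c| |p'(t)| ≤ 2 Re (conj c p'(t))`. -/
theorem tube_deriv_dom (p : Polynomial ℂ) (hp : 0 < p.natDegree) :
    ∃ c : ℂ, c ≠ 0 ∧ ∃ t₀ : ℝ, 0 ≤ t₀ ∧ ∀ t : ℝ, t₀ ≤ t →
      ‖c‖ * ‖p.derivative.eval (t : ℂ)‖
        ≤ 2 * ((starRingEnd ℂ) c * p.derivative.eval (t : ℂ)).re := by
  obtain ⟨m, hm⟩ : ∃ m, p.natDegree = m + 1 := ⟨p.natDegree - 1, by omega⟩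
  set q := p.derivative with hq
  have hqd : q.natDegree ≤ m := by
    have : q.natDegree ≤ p.natDegree - 1 := Polynomial.natDegree_derivative_le p
    omega
  set c := q.coeff m with hc
  have hc0 : c ≠ 0 := by
    rw [hc, hq, Polynomial.coeff_derivative]
    have h1 : p.coeff (m + 1) ≠ 0 := by
      rw [← hm]
      have : p ≠ 0 := by
        intro h
        rw [h] at hp
        simp at hp
      exact Polynomial.leadingCoeff_ne_zero.mpr this
    have h2 : ((m : ℂ) + 1) ≠ 0 := by exact_mod_cast Nat.succ_ne_zero m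
    exact mul_ne_zero h1 h2
  have hlim := tube_coeff_tendsto q m hqd
  have hA : Tendsto (fun t : ℝ => ‖c‖ * ‖q.eval (t : ℂ) / (t : ℂ) ^ m‖) atTop
      (𝓝 (‖c‖ * ‖c‖)) := (hlim.norm).const_mul _
  have hB : Tendsto (fun t : ℝ => 2 * ((starRingEnd ℂ) c * (q.eval (t : ℂ) / (t : ℂ) ^ m)).re)
      atTop (𝓝 (2 * ((starRingEnd ℂ) c * c).re)) :=
    (((Complex.continuous_re.tendsto _).comp (hlim.const_mul _))).const_mul 2
  have hlt : ‖c‖ * ‖c‖ < 2 * ((starRingEnd ℂ) c * c).re := by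
    have h1 : ((starRingEnd ℂ) c * c).re = ‖c‖ * ‖c‖ := by
      rw [mul_comm, Complex.mul_conj, Complex.ofReal_re, Complex.normSq_eq_norm_sq, sq]
    rw [h1]
    have : 0 < ‖c‖ * ‖c‖ := mul_pos (norm_pos_iff.mpr hc0) (norm_pos_iff.mpr hc0)
    linarith
  have hev := (hA.eventually_lt hB hlt).and (eventually_gt_atTop (0 : ℝ))
  obtain ⟨t₁, ht₁⟩ := eventually_atTop.mp hev
  refine ⟨c, hc0, max t₁ 0, le_max_right _ _, fun t ht => ?_⟩
  obtain ⟨h1, h2⟩ := ht₁ t ((le_max_left _ _).trans ht)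
  have h3 : (0 : ℝ) < t ^ m := pow_pos h2 m
  have h4 : q.eval (t : ℂ) = ((t ^ m : ℝ) : ℂ) * (q.eval (t : ℂ) / (t : ℂ) ^ m) := by
    rw [Complex.ofReal_pow, mul_div_cancel₀]
    exact pow_ne_zero _ (by exact_mod_cast h2.ne')
  have h5 : ‖q.eval (t : ℂ)‖ = t ^ m * ‖q.eval (t : ℂ) / (t : ℂ) ^ m‖ := by
    conv_lhs => rw [h4]
    rw [norm_mul, Complex.norm_real, Real.norm_of_nonneg h3.le]
  have h6 : ((starRingEnd ℂ) c * q.eval (t : ℂ)).re
      = t ^ m * ((starRingEnd ℂ) c * (q.eval (t : ℂ) / (t : ℂ) ^ m)).re := by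
    conv_lhs => rw [h4]
    rw [mul_left_comm, Complex.re_ofReal_mul]
  rw [h5, h6]
  nlinarith [mul_le_mul_of_nonneg_left h1.le h3.le]

/-- Far along the curve, distances are controlled by the increasing function `Re (conj c p)`. -/
theorem tube_mono (p : Polynomial ℂ) (c : ℂ) (t₀ : ℝ)
    (h : ∀ t : ℝ, t₀ ≤ t → ‖c‖ * ‖p.derivative.eval (t : ℂ)‖
        ≤ 2 * ((starRingEnd ℂ) c * p.derivative.eval (t : ℂ)).re)
    (s T : ℝ) (hs : t₀ ≤ s) (hsT : s ≤ T) :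
    ‖c‖ * ‖p.eval (T : ℂ) - p.eval (s : ℂ)‖
      ≤ 2 * (((starRingEnd ℂ) c * p.eval (T : ℂ)).re - ((starRingEnd ℂ) c * p.eval (s : ℂ)).re) := by
  have hd : ∀ x : ℝ, HasDerivAt (fun t : ℝ => p.eval (t : ℂ)) (p.derivative.eval (x : ℂ)) x :=
    fun x => (p.hasDerivAt (x : ℂ)).comp_ofReal
  have hf : ∀ x : ℝ, HasDerivAt (fun t : ℝ => (‖c‖ : ℂ) * (p.eval (t : ℂ) - p.eval (s : ℂ)))
      ((‖c‖ : ℂ) * p.derivative.eval (x : ℂ)) x := fun x => by
    exact ((hd x).sub_const _).const_mul _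
  have hre : ∀ x : ℝ, HasDerivAt (fun t : ℝ => ((starRingEnd ℂ) c * p.eval (t : ℂ)).re)
      (((starRingEnd ℂ) c * p.derivative.eval (x : ℂ)).re) x := fun x => by
    have h1 := (hd x).const_mul ((starRingEnd ℂ) c)
    exact (Complex.reCLM.hasFDerivAt.comp_hasDerivAt x h1)
  have hB : ∀ x : ℝ, HasDerivAt (fun t : ℝ => 2 * (((starRingEnd ℂ) c * p.eval (t : ℂ)).re
      - ((starRingEnd ℂ) c * p.eval (s : ℂ)).re))
      (2 * ((starRingEnd ℂ) c * p.derivative.eval (x : ℂ)).re) x := fun x =>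
    ((hre x).sub_const _).const_mul 2
  have key := image_norm_le_of_norm_deriv_right_le_deriv_boundary
    (f := fun t : ℝ => (‖c‖ : ℂ) * (p.eval (t : ℂ) - p.eval (s : ℂ)))
    (f' := fun x : ℝ => (‖c‖ : ℂ) * p.derivative.eval (x : ℂ)) (a := s) (b := T)
    (fun x _ => (hf x).continuousAt.continuousWithinAt)
    (fun x _ => (hf x).hasDerivWithinAt)
    (B := fun t : ℝ => 2 * (((starRingEnd ℂ) c * p.eval (t : ℂ)).re
      - ((starRingEnd ℂ) c * p.eval (s : ℂ)).re))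
    (B' := fun x : ℝ => 2 * ((starRingEnd ℂ) c * p.derivative.eval (x : ℂ)).re)
    (by simp) hB
    (fun x hx => by
      rw [norm_mul, Complex.norm_real, norm_norm]
      exact h x (hs.trans hx.1))
    (Set.right_mem_Icc.mpr hsT)
  simpa [norm_mul] using key

/-- A walk with steps at most `D` that stays within `ρ` of the curve `{p(t) : t ≥ 0}` and is
unbounded comes within `2 (D + 2 ρ) + ρ` of every far point `p(T)` of the curve. -/
theorem tube_hits (p : Polynomial ℂ) (hp : 0 < p.natDegree) (D ρ : ℝ) (z : ℕ → ℂ)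
    (hz : ∀ k, ‖z (k+1) - z k‖ ≤ D)
    (ht : ∀ k, ∃ t : ℝ, 0 ≤ t ∧ ‖z k - p.eval (t:ℂ)‖ ≤ ρ)
    (hunb : ∀ M : ℝ, ∃ k, M < ‖z k‖) :
    ∃ T1 : ℝ, ∀ T : ℝ, T1 ≤ T → ∃ k, ‖z k - p.eval (T:ℂ)‖ ≤ 2*(D+2*ρ)+ρ := by
  obtain ⟨c, hc0, t₀, ht₀, hdom⟩ := tube_deriv_dom p hp
  have hcpos : 0 < ‖c‖ := norm_pos_iff.mpr hc0
  choose t ht0 ht1 using ht
  have hcont : Continuous fun x : ℝ => p.eval (x : ℂ) :=
    p.continuous.comp Complex.continuous_ofReal
  have hstep : ∀ k, ‖p.eval ((t (k+1) : ℝ) : ℂ) - p.eval ((t k : ℝ) : ℂ)‖ ≤ D + 2 * ρ := by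
    intro k
    have e : p.eval ((t (k+1) : ℝ) : ℂ) - p.eval ((t k : ℝ) : ℂ)
        = (z (k+1) - z k) - (z (k+1) - p.eval ((t (k+1) : ℝ) : ℂ))
          + (z k - p.eval ((t k : ℝ) : ℂ)) := by ring
    rw [e]
    have h1 := norm_add_le ((z (k+1) - z k) - (z (k+1) - p.eval ((t (k+1) : ℝ) : ℂ)))
      (z k - p.eval ((t k : ℝ) : ℂ))
    have h2 := norm_sub_le (z (k+1) - z k) (z (k+1) - p.eval ((t (k+1) : ℝ) : ℂ))
    have h3 := hz k
    have h4 := ht1 k
    have h5 := ht1 (k+1)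
    linarith
  -- the parameters are unbounded
  have htunb : ∀ T : ℝ, ∃ k, T ≤ t k := by
    intro T
    by_contra hcon
    push Not at hcon
    obtain ⟨M, hM⟩ := (isCompact_Icc (a := (0 : ℝ)) (b := T)).exists_bound_of_continuousOn
      hcont.continuousOn
    obtain ⟨k, hk⟩ := hunb (M + ρ)
    have h1 := hM (t k) ⟨ht0 k, (hcon k).le⟩
    have h2 := ht1 k
    have h3 : ‖z k‖ ≤ ‖z k - p.eval ((t k : ℝ) : ℂ)‖ + ‖p.eval ((t k : ℝ) : ℂ)‖ := by
      have := norm_add_le (z k - p.eval ((t k : ℝ) : ℂ)) (p.eval ((t k : ℝ) : ℂ))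
      simpa using this
    linarith
  obtain ⟨M, hM⟩ := (isCompact_Icc (a := (0 : ℝ)) (b := t₀)).exists_bound_of_continuousOn
      hcont.continuousOn
  have hbig : Tendsto (fun x : ℝ => ‖p.eval (x : ℂ)‖) atTop atTop := by
    have hdeg : 0 < p.degree := Polynomial.natDegree_pos_iff_degree_pos.mp hp
    refine Polynomial.tendsto_norm_atTop p hdeg ?_
    refine Tendsto.congr' ?_ tendsto_id
    filter_upwards [eventually_ge_atTop (0 : ℝ)] with x hx
    simp [Complex.norm_real, abs_of_nonneg hx]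
  obtain ⟨T₂, hT₂⟩ := eventually_atTop.mp (hbig.eventually_gt_atTop (M + (D + 2 * ρ)))
  refine ⟨max (max (t 0 + 1) t₀) T₂, fun T hT => ?_⟩
  have hTa : t 0 + 1 ≤ T := ((le_max_left _ _).trans (le_max_left _ _)).trans hT
  have hTb : t₀ ≤ T := ((le_max_right _ _).trans (le_max_left _ _)).trans hT
  have hTc : T₂ ≤ T := (le_max_right _ _).trans hT
  classical
  have hex := htunb T
  obtain ⟨k, hk⟩ : ∃ k, Nat.find hex = k + 1 := by
    refine ⟨Nat.find hex - 1, ?_⟩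
    have : Nat.find hex ≠ 0 := by
      intro h0
      have := Nat.find_spec hex
      rw [h0] at this
      linarith
    omega
  have hk1 : T ≤ t (k+1) := by
    have := Nat.find_spec hex
    rwa [hk] at this
  have hk0 : t k < T := by
    have := Nat.find_min hex (m := k) (by omega)
    exact not_le.mp this
  have hst := hstep k
  refine ⟨k, ?_⟩
  have hge : t₀ ≤ t k := by
    by_contra hlt
    push Not at hlt
    have h1 := hM (t k) ⟨ht0 k, hlt.le⟩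
    have h2 := hT₂ (t (k+1)) (hTc.trans hk1)
    have h3 : ‖p.eval ((t (k+1) : ℝ) : ℂ)‖
        ≤ ‖p.eval ((t (k+1) : ℝ) : ℂ) - p.eval ((t k : ℝ) : ℂ)‖ + ‖p.eval ((t k : ℝ) : ℂ)‖ := by
      have := norm_add_le (p.eval ((t (k+1) : ℝ) : ℂ) - p.eval ((t k : ℝ) : ℂ))
        (p.eval ((t k : ℝ) : ℂ))
      simpa using this
    linarith
  have e1 := tube_mono p c t₀ hdom (t k) T hge hk0.le
  have e2 := tube_mono p c t₀ hdom T (t (k+1)) hTb hk1
  have e3 : ((starRingEnd ℂ) c * p.eval ((t (k+1) : ℝ) : ℂ)).re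
      - ((starRingEnd ℂ) c * p.eval ((t k : ℝ) : ℂ)).re ≤ ‖c‖ * (D + 2 * ρ) := by
    have h1 : ((starRingEnd ℂ) c * p.eval ((t (k+1) : ℝ) : ℂ)).re
        - ((starRingEnd ℂ) c * p.eval ((t k : ℝ) : ℂ)).re
        = ((starRingEnd ℂ) c * (p.eval ((t (k+1) : ℝ) : ℂ) - p.eval ((t k : ℝ) : ℂ))).re := by
      rw [mul_sub, Complex.sub_re]
    rw [h1]
    refine (Complex.re_le_norm _).trans ?_
    rw [norm_mul, RCLike.norm_conj]
    exact mul_le_mul_of_nonneg_left hst hcpos.le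
  have e4 : 0 ≤ ‖c‖ * ‖p.eval ((t (k+1) : ℝ) : ℂ) - p.eval (T : ℂ)‖ := by positivity
  have e5 : ‖c‖ * ‖p.eval (T : ℂ) - p.eval ((t k : ℝ) : ℂ)‖ ≤ ‖c‖ * (2 * (D + 2 * ρ)) := by
    linarith
  have e6 : ‖p.eval (T : ℂ) - p.eval ((t k : ℝ) : ℂ)‖ ≤ 2 * (D + 2 * ρ) :=
    le_of_mul_le_mul_left e5 hcpos
  have e7 : z k - p.eval (T : ℂ) = (z k - p.eval ((t k : ℝ) : ℂ))
      - (p.eval (T : ℂ) - p.eval ((t k : ℝ) : ℂ)) := by ring
  rw [e7]
  have e8 := norm_sub_le (z k - p.eval ((t k : ℝ) : ℂ)) (p.eval (T : ℂ) - p.eval ((t k : ℝ) : ℂ))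
  have e9 := ht1 k
  linarith

end Vale.Agent.P015
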