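import Mathlib
import Vale.Agent.Lib.P015.Disc
import Vale.Agent.Lib.P015.Tube

/-! P015: no bounded-step walk on distinct Gaussian primes inside a tube around a polynomial curve
with coefficients in `ℚ(i)`. -/

namespace Vale.Agent.P015.Curve

open Polynomial

theorem norm_cast_sq (w : GaussianInt) : ((Zsqrtd.norm w : ℤ) : ℝ) = ‖(w : ℂ)‖ ^ 2 := by
  rw [GaussianInt.intCast_real_norm, Complex.normSq_eq_norm_sq]

theorem unbounded (z : ℕ → GaussianInt) (hz : Function.Injective z) (M : ℝ) :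
    ∃ k, M < ‖((z k : GaussianInt) : ℂ)‖ := by
  by_contra hcon
  push Not at hcon
  obtain ⟨W, hW⟩ := small_finite ⌈M ^ 2⌉
  have hmem : ∀ k, z k ∈ W := by
    intro k
    refine hW _ ?_
    have h1 := hcon k
    have h2 := norm_cast_sq (z k)
    have h3 : ((Zsqrtd.norm (z k) : ℤ) : ℝ) ≤ M ^ 2 := by
      rw [h2]; exact pow_le_pow_left₀ (norm_nonneg _) h1 2
    exact_mod_cast h3.trans (Int.le_ceil _)
  have hinf : Set.Infinite (Set.range z) := Set.infinite_range_of_injective hz
  exact hinf (W.finite_toSet.subset (by rintro _ ⟨k, rfl⟩; exact hmem k))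

/-- discs of any radius without Gaussian primes, centred at points `f(t)`, `t` arbitrarily large -/
theorem poly_discs (f : Polynomial GaussianInt) (hf : 0 < f.natDegree) (R : ℝ) (N : ℤ) :
    ∃ t : ℤ, N ≤ t ∧ ∀ z : GaussianInt,
      ‖((z : GaussianInt) : ℂ) - ((f.eval (t : GaussianInt) : GaussianInt) : ℂ)‖ ≤ R →
        ¬ Irreducible z := by
  obtain ⟨t, ht, hdisc⟩ := discs f hf ⌈R ^ 2⌉ N
  refine ⟨t, ht, fun z hz => hdisc z ?_⟩
  have h2 := norm_cast_sq (z - f.eval (t : GaussianInt))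
  have h4 : ((Zsqrtd.norm (z - f.eval (t : GaussianInt)) : ℤ) : ℝ) ≤ R ^ 2 := by
    rw [h2]
    refine pow_le_pow_left₀ (norm_nonneg _) ?_ 2
    rw [GaussianInt.toComplex_sub]
    exact hz
  exact_mod_cast h4.trans (Int.le_ceil _)

theorem int_moat (f : Polynomial GaussianInt) (hf : 0 < f.natDegree) (D ρ : ℝ) :
    ¬ ∃ z : ℕ → GaussianInt, Function.Injective z ∧ (∀ k, Irreducible (z k)) ∧
      (∀ k, ‖((z (k + 1) : GaussianInt) : ℂ) - (z k : ℂ)‖ ≤ D) ∧
      ∀ k, ∃ t : ℝ, 0 ≤ t ∧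
        ‖((z k : GaussianInt) : ℂ) - (f.map GaussianInt.toComplex).eval (t : ℂ)‖ ≤ ρ := by
  rintro ⟨z, hinj, hirr, hstep, htube⟩
  have hp : 0 < (f.map GaussianInt.toComplex).natDegree := by
    rw [Polynomial.natDegree_map_eq_of_injective GaussianInt.toComplex_injective]
    exact hf
  obtain ⟨T1, hT1⟩ := tube_hits (f.map GaussianInt.toComplex) hp D ρ
    (fun k => ((z k : GaussianInt) : ℂ)) hstep htube (unbounded z hinj)
  obtain ⟨t, ht, hdisc⟩ := discs f hf ⌈(2 * (D + 2 * ρ) + ρ) ^ 2⌉ ⌈T1⌉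
  obtain ⟨k, hk⟩ := hT1 ((t : ℤ) : ℝ) (le_trans (Int.le_ceil _) (by exact_mod_cast ht))
  refine hdisc (z k) ?_ (hirr k)
  have h3 : (f.map GaussianInt.toComplex).eval ((((t : ℤ) : ℝ) : ℂ)) =
      ((f.eval (t : GaussianInt) : GaussianInt) : ℂ) := by
    rw [Complex.ofReal_intCast, ← map_intCast GaussianInt.toComplex t, Polynomial.eval_map,
      Polynomial.eval₂_at_apply]
  rw [h3] at hk
  have h2 := norm_cast_sq (z k - f.eval (t : GaussianInt))
  have h4 : ((Zsqrtd.norm (z k - f.eval (t : GaussianInt)) : ℤ) : ℝ) ≤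
      (2 * (D + 2 * ρ) + ρ) ^ 2 := by
    rw [h2]
    refine pow_le_pow_left₀ (norm_nonneg _) ?_ 2
    rw [GaussianInt.toComplex_sub]
    exact hk
  exact_mod_cast h4.trans (Int.le_ceil _)

/-- the same for curves `f(t) / n`, i.e. for all polynomials with coefficients in `ℚ(i)` -/
theorem poly_moat (f : Polynomial GaussianInt) (hf : 0 < f.natDegree) (n : ℕ) (hn : 0 < n)
    (D ρ : ℝ) :
    ¬ ∃ z : ℕ → GaussianInt, Function.Injective z ∧ (∀ k, Irreducible (z k)) ∧
      (∀ k, ‖((z (k + 1) : GaussianInt) : ℂ) - (z k : ℂ)‖ ≤ D) ∧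
      ∀ k, ∃ t : ℝ, 0 ≤ t ∧
        ‖((z k : GaussianInt) : ℂ) - (f.map GaussianInt.toComplex).eval (t : ℂ) / n‖ ≤ ρ := by
  rintro ⟨z, hinj, hirr, hstep, htube⟩
  have hn' : (n : GaussianInt) ≠ 0 := by exact_mod_cast hn.ne'
  have hnr : (n : ℝ) ≠ 0 := by exact_mod_cast hn.ne'
  have hnc : (n : ℂ) ≠ 0 := by exact_mod_cast hn.ne'
  set g : Polynomial GaussianInt := f.divX.comp (C (n : GaussianInt) * X) * X with hg
  have hdiv : f.divX ≠ 0 := by
    intro h
    have := Polynomial.divX_eq_zero_iff.1 h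
    rw [this] at hf
    simp at hf
  have hlin : (C (n : GaussianInt) * X : Polynomial GaussianInt).natDegree = 1 :=
    Polynomial.natDegree_C_mul_X _ hn'
  have hgdeg : 0 < g.natDegree := by
    have hc : f.divX.comp (C (n : GaussianInt) * X) ≠ 0 := by
      intro h
      have h1 : (f.divX.comp (C (n : GaussianInt) * X)).leadingCoeff = 0 := by rw [h]; simp
      rw [Polynomial.leadingCoeff_comp (by rw [hlin]; exact one_ne_zero)] at h1
      rcases mul_eq_zero.1 h1 with h2 | h2
      · exact hdiv (Polynomial.leadingCoeff_eq_zero.1 h2)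
      · have h4 : (C (n : GaussianInt) * X : Polynomial GaussianInt).leadingCoeff = 0 :=
          eq_zero_of_pow_eq_zero h2
        rw [Polynomial.leadingCoeff_C_mul_X] at h4
        exact hn' h4
    rw [hg, Polynomial.natDegree_mul_X hc]
    omega
  refine int_moat g hgdeg D (ρ + ‖(f.map GaussianInt.toComplex).eval 0 / n‖)
    ⟨z, hinj, hirr, hstep, fun k => ?_⟩
  obtain ⟨t, ht0, ht⟩ := htube k
  refine ⟨t / n, by positivity, ?_⟩
  have e1 : (f.map GaussianInt.toComplex).eval (t : ℂ) =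
      (g.map GaussianInt.toComplex).eval ((t / n : ℝ) : ℂ) * n +
        (f.map GaussianInt.toComplex).eval 0 := by
    have e2 : f.map GaussianInt.toComplex =
        f.divX.map GaussianInt.toComplex * X + C (GaussianInt.toComplex (f.coeff 0)) := by
      conv_lhs => rw [← Polynomial.divX_mul_X_add f]
      simp
    rw [e2, hg]
    simp only [Polynomial.map_mul, Polynomial.map_comp, Polynomial.map_X,
      Polynomial.eval_add, Polynomial.eval_mul, Polynomial.eval_comp, Polynomial.eval_X,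
      Polynomial.eval_C, map_natCast, Polynomial.map_natCast, Polynomial.eval_natCast, mul_zero,
      zero_add]
    have e3 : (n : ℂ) * ((t / n : ℝ) : ℂ) = (t : ℂ) := by
      push_cast
      field_simp
    rw [e3]
    have e4 : ((t / n : ℝ) : ℂ) * n = (t : ℂ) := by rw [mul_comm]; exact e3
    rw [mul_assoc, e4]
  have e5 : ((z k : GaussianInt) : ℂ) - (g.map GaussianInt.toComplex).eval ((t / n : ℝ) : ℂ) =
      (((z k : GaussianInt) : ℂ) - (f.map GaussianInt.toComplex).eval (t : ℂ) / n) +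
        (f.map GaussianInt.toComplex).eval 0 / n := by
    rw [e1]
    field_simp
    ring
  rw [e5]
  exact (norm_add_le _ _).trans (add_le_add ht le_rfl)

end Vale.Agent.P015.Curve
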