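import Vale.Agent.Lib.P015.Core

/-! P015 (Gaussian moats): walks in strips have bounded length, uniformly in the strip. -/

namespace Vale.Agent.P015.Strips

open Finset

theorem primitive {a b ε B : ℝ} {w1 w2 : ℤ} (hw : 0 < w1 ∨ 0 < w2)
    (h1 : |a * w2 - b * w1| ≤ ε) (h2 : (w1 : ℝ) ^ 2 + (w2 : ℝ) ^ 2 ≤ B) :
    ∃ v1 v2 : ℤ, IsCoprime v1 v2 ∧ |a * v2 - b * v1| ≤ ε ∧ (v1 : ℝ) ^ 2 + (v2 : ℝ) ^ 2 ≤ B := by
  have hg : 0 < Int.gcd w1 w2 := by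
    rw [Int.gcd_pos_iff]
    rcases hw with h | h
    · exact Or.inl h.ne'
    · exact Or.inr h.ne'
  obtain ⟨v1, v2, hc, e1, e2⟩ := Int.exists_gcd_one hg
  set g : ℕ := Int.gcd w1 w2 with hgdef
  have hg1 : (1 : ℝ) ≤ (g : ℝ) := by exact_mod_cast hg
  have e1' : (w1 : ℝ) = v1 * g := by exact_mod_cast congrArg (Int.cast : ℤ → ℝ) e1
  have e2' : (w2 : ℝ) = v2 * g := by exact_mod_cast congrArg (Int.cast : ℤ → ℝ) e2
  refine ⟨v1, v2, Int.isCoprime_iff_gcd_eq_one.2 hc, ?_, ?_⟩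
  · refine le_trans ?_ h1
    rw [e1', e2', show a * (v2 * (g : ℝ)) - b * (v1 * g) = (a * v2 - b * v1) * g by ring, abs_mul,
      abs_of_pos (lt_of_lt_of_le one_pos hg1)]
    exact le_mul_of_one_le_right (abs_nonneg _) hg1
  · refine le_trans ?_ h2
    rw [e1', e2']
    have : (1 : ℝ) ≤ (g : ℝ) ^ 2 := one_le_pow₀ hg1
    nlinarith [sq_nonneg (v1 : ℝ), sq_nonneg (v2 : ℝ)]

theorem dirichlet {a b : ℝ} (hab : a ^ 2 + b ^ 2 = 1) {Q : ℕ} (hQ : 0 < Q) :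
    ∃ v1 v2 : ℤ, IsCoprime v1 v2 ∧ |a * v2 - b * v1| ≤ 1 / (Q + 1) ∧
      (v1 : ℝ) ^ 2 + (v2 : ℝ) ^ 2 ≤ (2 * Q + 2) ^ 2 ∧ 0 < a * v1 + b * v2 := by
  have hQ1 : (1 : ℝ) ≤ Q := by exact_mod_cast hQ
  have ha1 : |a| ≤ 1 := abs_le_one_iff_mul_self_le_one.2 (by nlinarith [sq_nonneg b])
  have hb1 : |b| ≤ 1 := abs_le_one_iff_mul_self_le_one.2 (by nlinarith [sq_nonneg a])
  have haux : ∀ (ξ : ℝ), |ξ| ≤ 1 → ∃ j k : ℤ, 0 < k ∧ |(k : ℝ) * ξ - j| ≤ 1 / (Q + 1) ∧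
      (k : ℝ) ^ 2 + (j : ℝ) ^ 2 ≤ (2 * Q + 2) ^ 2 := by
    intro ξ hξ
    obtain ⟨j, k, hk0, hkQ, hjk⟩ := Real.exists_int_int_abs_mul_sub_le ξ hQ
    refine ⟨j, k, hk0, hjk, ?_⟩
    have hkQ' : (k : ℝ) ≤ Q := by exact_mod_cast hkQ
    have hk0' : (0 : ℝ) < k := by exact_mod_cast hk0
    have h1 : |(k : ℝ) * ξ| ≤ Q := by
      rw [abs_mul, abs_of_pos hk0']
      nlinarith [abs_nonneg ξ]
    have h2 : (1 : ℝ) / (Q + 1) ≤ 1 := by
      rw [div_le_one (by positivity)]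
      linarith
    have h3 : |(j : ℝ)| ≤ Q + 1 := by
      have : (j : ℝ) = (k : ℝ) * ξ - ((k : ℝ) * ξ - j) := by ring
      rw [this]
      exact (abs_sub _ _).trans (by linarith)
    have h4 : (j : ℝ) ^ 2 ≤ (Q + 1) ^ 2 := by
      rw [← sq_abs]
      exact pow_le_pow_left₀ (abs_nonneg _) h3 2
    have h5 : (k : ℝ) ^ 2 ≤ Q ^ 2 := pow_le_pow_left₀ hk0'.le hkQ' 2
    nlinarith
  have hbase : ∃ v1 v2 : ℤ, IsCoprime v1 v2 ∧ |a * v2 - b * v1| ≤ 1 / (Q + 1) ∧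
      (v1 : ℝ) ^ 2 + (v2 : ℝ) ^ 2 ≤ (2 * Q + 2) ^ 2 := by
    rcases le_total |b| |a| with hle | hle
    · have ha0 : a ≠ 0 := by
        intro h0
        rw [h0, abs_zero] at hle
        have : b = 0 := abs_eq_zero.1 (le_antisymm hle (abs_nonneg _))
        rw [h0, this] at hab
        norm_num at hab
      have hξ : |b / a| ≤ 1 := by
        rw [abs_div, div_le_one (abs_pos.2 ha0)]
        exact hle
      obtain ⟨j, k, hk0, hjk, hn⟩ := haux (b / a) hξ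
      refine primitive (w1 := k) (w2 := j) (Or.inl hk0) ?_ hn
      have : a * (j : ℝ) - b * k = -(a * ((k : ℝ) * (b / a) - j)) := by
        field_simp
        ring
      rw [this, abs_neg, abs_mul]
      calc |a| * |(k : ℝ) * (b / a) - j| ≤ 1 * |(k : ℝ) * (b / a) - j| :=
            mul_le_mul_of_nonneg_right ha1 (abs_nonneg _)
        _ ≤ 1 / (Q + 1) := by rw [one_mul]; exact hjk
    · have hb0 : b ≠ 0 := by
        intro h0
        rw [h0, abs_zero] at hle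
        have : a = 0 := abs_eq_zero.1 (le_antisymm hle (abs_nonneg _))
        rw [h0, this] at hab
        norm_num at hab
      have hξ : |a / b| ≤ 1 := by
        rw [abs_div, div_le_one (abs_pos.2 hb0)]
        exact hle
      obtain ⟨j, k, hk0, hjk, hn⟩ := haux (a / b) hξ
      refine primitive (w1 := j) (w2 := k) (Or.inr hk0) ?_ (by rw [add_comm]; exact hn)
      have : a * (k : ℝ) - b * j = b * ((k : ℝ) * (a / b) - j) := by
        field_simp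
      rw [this, abs_mul]
      calc |b| * |(k : ℝ) * (a / b) - j| ≤ 1 * |(k : ℝ) * (a / b) - j| :=
            mul_le_mul_of_nonneg_right hb1 (abs_nonneg _)
        _ ≤ 1 / (Q + 1) := by rw [one_mul]; exact hjk
  obtain ⟨v1, v2, hc, h1, h2⟩ := hbase
  have hne : a * (v1 : ℝ) + b * v2 ≠ 0 := by
    intro h0
    have e1 : (a * (v1 : ℝ) + b * v2) ^ 2 + (a * v2 - b * v1) ^ 2 = (v1 : ℝ) ^ 2 + (v2 : ℝ) ^ 2 := by
      have : (a * (v1 : ℝ) + b * v2) ^ 2 + (a * v2 - b * v1) ^ 2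
          = (a ^ 2 + b ^ 2) * ((v1 : ℝ) ^ 2 + (v2 : ℝ) ^ 2) := by ring
      rw [this, hab, one_mul]
    rw [h0] at e1
    have e2 : (a * (v2 : ℝ) - b * v1) ^ 2 ≤ (1 / 2) ^ 2 := by
      rw [← sq_abs]
      refine pow_le_pow_left₀ (abs_nonneg _) (h1.trans ?_) 2
      rw [div_le_div_iff₀ (by positivity) (by norm_num)]
      linarith
    have e3 : (1 : ℤ) ≤ v1 ^ 2 + v2 ^ 2 := by
      by_contra hcon
      have e4 : v1 ^ 2 + v2 ^ 2 ≤ 0 := by omega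
      have e5 : v1 = 0 := by nlinarith [sq_nonneg v1, sq_nonneg v2]
      have e6 : v2 = 0 := by nlinarith [sq_nonneg v1, sq_nonneg v2]
      rw [e5, e6] at hc
      exact not_isCoprime_zero_zero hc
    have e4 : (1 : ℝ) ≤ (v1 : ℝ) ^ 2 + (v2 : ℝ) ^ 2 := by exact_mod_cast e3
    nlinarith
  rcases lt_or_gt_of_ne hne with hlt | hgt
  · refine ⟨-v1, -v2, hc.neg_neg, ?_, ?_, ?_⟩
    · push_cast
      rw [show a * -(v2 : ℝ) - b * -(v1 : ℝ) = -(a * v2 - b * v1) by ring, abs_neg]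
      exact h1
    · push_cast
      rw [neg_sq, neg_sq]
      exact h2
    · push_cast
      linarith
  · exact ⟨v1, v2, hc, h1, h2, hgt⟩

theorem rot {a b : ℝ} (hab : a ^ 2 + b ^ 2 = 1) (s t : ℝ) :
    (a * s + b * t) ^ 2 + (a * t - b * s) ^ 2 = s ^ 2 + t ^ 2 := by
  have : (a * s + b * t) ^ 2 + (a * t - b * s) ^ 2 = (a ^ 2 + b ^ 2) * (s ^ 2 + t ^ 2) := by ring
  rw [this, hab, one_mul]

theorem abs_par_le {a b : ℝ} (hab : a ^ 2 + b ^ 2 = 1) {s t B : ℝ} (hB : 0 ≤ B)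
    (h : s ^ 2 + t ^ 2 ≤ B ^ 2) : |a * s + b * t| ≤ B := by
  refine abs_le_of_sq_le_sq ?_ hB
  have := rot hab s t
  nlinarith [sq_nonneg (a * t - b * s)]

/-- discrete intermediate value theorem -/
theorem ivt {q : ℕ → ℝ} {n : ℕ} {T δ : ℝ} (hT0 : 0 ≤ T) (h0 : q 0 = 0) (hn : T ≤ q n)
    (hδ : 0 ≤ δ) (hstep : ∀ j < n, q (j + 1) - q j ≤ δ) : ∃ i, i ≤ n ∧ |q i - T| ≤ δ := by
  classical
  have hE : ∃ i, T ≤ q i := ⟨n, hn⟩
  have hfind : Nat.find hE ≤ n := Nat.find_min' hE hn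
  refine ⟨Nat.find hE, hfind, ?_⟩
  have h1 := Nat.find_spec hE
  rcases Nat.eq_zero_or_pos (Nat.find hE) with h2 | h2
  · rw [h2] at h1 ⊢
    rw [h0] at h1 ⊢
    have : T = 0 := le_antisymm h1 hT0
    rw [this]
    simpa using hδ
  · obtain ⟨j, hj⟩ : ∃ j, Nat.find hE = j + 1 := ⟨Nat.find hE - 1, by omega⟩
    have h3 : ¬ T ≤ q j := Nat.find_min hE (by omega)
    rw [hj] at h1 hfind ⊢
    have h4 := hstep j (by omega)
    push Not at h3
    rw [abs_le]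
    constructor <;> linarith

theorem perp_bound {A B P h k M : ℝ} (hA : |A| ≤ |h|) (hB : |B| ≤ |h|) (hk0 : 0 ≤ k) (hk : k ≤ M)
    (hM : 0 ≤ M) (hP : |P| ≤ 1 / (M + 1)) : |A - B - k * P| ≤ 2 * |h| + 1 := by
  have e4 : |k * P| ≤ 1 := by
    rw [abs_mul, abs_of_nonneg hk0]
    calc k * |P| ≤ M * (1 / (M + 1)) := mul_le_mul hk hP (abs_nonneg _) hM
      _ ≤ 1 := by
          rw [mul_one_div, div_le_one (by positivity)]
          linarith
  calc |A - B - k * P| ≤ |A - B| + |k * P| := abs_sub _ _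
    _ ≤ (|A| + |B|) + 1 := add_le_add (abs_sub _ _) e4
    _ ≤ 2 * |h| + 1 := by linarith

theorem box_bound {a b : ℝ} (hab : a ^ 2 + b ^ 2 = 1) {s t D H : ℝ} (hD : 0 ≤ D) (hH : 0 ≤ H)
    (h1 : |a * s + b * t| ≤ D) (h2 : |a * t - b * s| ≤ H) : |s| ≤ D + H ∧ |t| ≤ D + H := by
  have e2 : (a * s + b * t) ^ 2 ≤ D ^ 2 := by
    rw [← sq_abs (a * s + b * t)]
    exact pow_le_pow_left₀ (abs_nonneg _) h1 2
  have e3 : (a * t - b * s) ^ 2 ≤ H ^ 2 := by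
    rw [← sq_abs (a * t - b * s)]
    exact pow_le_pow_left₀ (abs_nonneg _) h2 2
  have e4 := rot hab s t
  have e5 : s ^ 2 + t ^ 2 ≤ (D + H) ^ 2 := by nlinarith [mul_nonneg hD hH]
  constructor
  · exact abs_le_of_sq_le_sq (by nlinarith [sq_nonneg t]) (by positivity)
  · exact abs_le_of_sq_le_sq (by nlinarith [sq_nonneg s]) (by positivity)

/-- one-sided form -/
theorem strip_par (D h : ℝ) : ∃ L r : ℝ, 0 ≤ L ∧ ∀ a b c : ℝ, a ^ 2 + b ^ 2 = 1 →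
    ∀ (n : ℕ) (x y : ℕ → ℤ), (∀ i ≤ n, Prime (⟨x i, y i⟩ : GaussianInt)) →
      (∀ i ≤ n, r < (x i : ℝ) ^ 2 + (y i : ℝ) ^ 2) →
      (∀ i < n, ((x (i + 1) : ℝ) - x i) ^ 2 + ((y (i + 1) : ℝ) - y i) ^ 2 ≤ D ^ 2) →
      (∀ i ≤ n, |a * y i - b * x i - c| ≤ h) →
        a * ((x n : ℝ) - x 0) + b * ((y n : ℝ) - y 0) ≤ L := by
  obtain ⟨M, hM, hcore⟩ := core ⌈|D| + (2 * |h| + 1)⌉₊
  have hM1 : (1 : ℝ) ≤ M := by exact_mod_cast hM
  refine ⟨M * (2 * M + 2), (M : ℝ) ^ 2, by positivity, ?_⟩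
  intro a b c hab n x y hprime hr hstep hstrip
  by_contra hcon
  push Not at hcon
  obtain ⟨v1, v2, hc, hperp, hnorm, hpos⟩ := dirichlet hab hM
  obtain ⟨k, hkM, hk⟩ := hcore v1 v2 hc (x 0) (y 0)
  have hkM' : (k : ℝ) ≤ M := by exact_mod_cast hkM.le
  obtain ⟨T, hT⟩ : ∃ T : ℝ, T = k * (a * v1 + b * v2) := ⟨_, rfl⟩
  have hT0 : 0 ≤ T := by rw [hT]; positivity
  have hpar : a * (v1 : ℝ) + b * v2 ≤ 2 * M + 2 :=
    (le_abs_self _).trans (abs_par_le hab (by positivity) hnorm)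
  have hTL : T ≤ M * (2 * M + 2) := by
    rw [hT]
    exact mul_le_mul hkM' hpar hpos.le (by positivity)
  have hex : ∃ i, i ≤ n ∧
      |(a * ((x i : ℝ) - x 0) + b * ((y i : ℝ) - y 0)) - T| ≤ |D| := by
    refine ivt (q := fun i => a * ((x i : ℝ) - x 0) + b * ((y i : ℝ) - y 0)) hT0 ?_ ?_
      (abs_nonneg D) ?_
    · simp
    · show T ≤ a * ((x n : ℝ) - x 0) + b * ((y n : ℝ) - y 0)
      linarith
    · intro j hj
      have h4 := hstep j hj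
      rw [← sq_abs D] at h4
      have h5 := (le_abs_self _).trans (abs_par_le hab (abs_nonneg D) h4)
      show a * ((x (j + 1) : ℝ) - x 0) + b * ((y (j + 1) : ℝ) - y 0)
        - (a * ((x j : ℝ) - x 0) + b * ((y j : ℝ) - y 0)) ≤ |D|
      linarith
  obtain ⟨i, hin, hi⟩ := hex
  obtain ⟨s, hs⟩ : ∃ s : ℤ, s = x i - x 0 - k * v1 := ⟨_, rfl⟩
  obtain ⟨t, ht⟩ : ∃ t : ℤ, t = y i - y 0 - k * v2 := ⟨_, rfl⟩
  have hsr : (s : ℝ) = x i - x 0 - k * v1 := by rw [hs]; push_cast; ring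
  have htr : (t : ℝ) = y i - y 0 - k * v2 := by rw [ht]; push_cast; ring
  have hpar2 : |a * (s : ℝ) + b * t| ≤ |D| := by
    have e1 : a * (s : ℝ) + b * t
        = (a * ((x i : ℝ) - x 0) + b * ((y i : ℝ) - y 0)) - T := by
      rw [hsr, htr, hT]; ring
    rw [e1]
    exact hi
  have hperp2 : |a * (t : ℝ) - b * s| ≤ 2 * |h| + 1 := by
    have e1 : a * (t : ℝ) - b * s = (a * y i - b * x i - c) - (a * y 0 - b * x 0 - c)
        - k * (a * v2 - b * v1) := by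
      rw [hsr, htr]; ring
    rw [e1]
    exact perp_bound ((hstrip i hin).trans (le_abs_self h))
      ((hstrip 0 (Nat.zero_le n)).trans (le_abs_self h)) (Nat.cast_nonneg k) hkM'
      (Nat.cast_nonneg M) hperp
  obtain ⟨hs1, ht1⟩ := box_bound hab (abs_nonneg D) (by positivity) hpar2 hperp2
  have hs2 : |s| ≤ (⌈|D| + (2 * |h| + 1)⌉₊ : ℤ) := by
    have : |(s : ℝ)| ≤ (⌈|D| + (2 * |h| + 1)⌉₊ : ℝ) := hs1.trans (Nat.le_ceil _)
    exact_mod_cast this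
  have ht2 : |t| ≤ (⌈|D| + (2 * |h| + 1)⌉₊ : ℤ) := by
    have : |(t : ℝ)| ≤ (⌈|D| + (2 * |h| + 1)⌉₊ : ℝ) := ht1.trans (Nat.le_ceil _)
    exact_mod_cast this
  have ex : x 0 + k * v1 + s = x i := by rw [hs]; ring
  have ey : y 0 + k * v2 + t = y i := by rw [ht]; ring
  have hbig : (M : ℤ) ^ 2 < (x 0 + k * v1 + s) ^ 2 + (y 0 + k * v2 + t) ^ 2 := by
    rw [ex, ey]
    exact_mod_cast hr i hin
  have hfin := hk s t hs2 ht2 hbig
  rw [ex, ey] at hfin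
  exact hfin (hprime i hin)

/-- walks through Gaussian primes in a strip have bounded diameter, uniformly in the strip -/
theorem strip (D h : ℝ) : ∃ L r : ℝ, 0 ≤ L ∧ ∀ a b c : ℝ, a ^ 2 + b ^ 2 = 1 →
    ∀ (n : ℕ) (z : ℕ → GaussianInt), (∀ i ≤ n, Prime (z i)) →
      (∀ i ≤ n, r < ((z i).norm : ℝ)) →
      (∀ i < n, ((z (i + 1) - z i).norm : ℝ) ≤ D ^ 2) →
      (∀ i ≤ n, |a * (z i).im - b * (z i).re - c| ≤ h) →
        ((z n - z 0).norm : ℝ) ≤ L ^ 2 := by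
  obtain ⟨L, r, hL, H⟩ := strip_par D h
  refine ⟨L + 2 * |h|, r, by positivity, ?_⟩
  intro a b c hab n z hprime hr hstep hstrip
  have hnorm : ∀ w : GaussianInt, (w.norm : ℝ) = (w.re : ℝ) ^ 2 + (w.im : ℝ) ^ 2 := by
    intro w
    simp only [Zsqrtd.norm]
    push_cast
    ring
  have hr' : ∀ i ≤ n, r < ((z i).re : ℝ) ^ 2 + ((z i).im : ℝ) ^ 2 := by
    intro i hi
    rw [← hnorm]
    exact hr i hi
  have hstep' : ∀ i < n, (((z (i + 1)).re : ℝ) - (z i).re) ^ 2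
      + (((z (i + 1)).im : ℝ) - (z i).im) ^ 2 ≤ D ^ 2 := by
    intro i hi
    have := hstep i hi
    rw [hnorm, Zsqrtd.re_sub, Zsqrtd.im_sub] at this
    push_cast at this
    exact this
  have h1 := H a b c hab n (fun i => (z i).re) (fun i => (z i).im) (fun i hi => hprime i hi) hr'
    hstep' hstrip
  have h2 := H (-a) (-b) (-c) (by rw [neg_sq, neg_sq]; exact hab) n (fun i => (z i).re)
    (fun i => (z i).im) (fun i hi => hprime i hi) hr' hstep' (by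
      intro i hi
      have e1 : -a * ((z i).im : ℝ) - -b * ((z i).re : ℝ) - -c
          = -(a * (z i).im - b * (z i).re - c) := by ring
      show |-a * ((z i).im : ℝ) - -b * ((z i).re : ℝ) - -c| ≤ h
      rw [e1, abs_neg]
      exact hstrip i hi)
  have h3 : |a * (((z n).re : ℝ) - (z 0).re) + b * (((z n).im : ℝ) - (z 0).im)| ≤ L := by
    rw [abs_le]
    constructor
    · linarith
    · exact h1
  have h4 : |a * (((z n).im : ℝ) - (z 0).im) - b * (((z n).re : ℝ) - (z 0).re)| ≤ 2 * |h| := by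
    have e1 : a * (((z n).im : ℝ) - (z 0).im) - b * (((z n).re : ℝ) - (z 0).re)
        = (a * (z n).im - b * (z n).re - c) - (a * (z 0).im - b * (z 0).re - c) := by ring
    rw [e1]
    have e2 := (hstrip n le_rfl).trans (le_abs_self h)
    have e3 := (hstrip 0 (Nat.zero_le n)).trans (le_abs_self h)
    exact (abs_sub _ _).trans (by linarith)
  rw [hnorm, Zsqrtd.re_sub, Zsqrtd.im_sub]
  push_cast
  rw [← rot hab]
  have e2 : (a * (((z n).re : ℝ) - (z 0).re) + b * (((z n).im : ℝ) - (z 0).im)) ^ 2 ≤ L ^ 2 := by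
    rw [← sq_abs]
    exact pow_le_pow_left₀ (abs_nonneg _) h3 2
  have e3 : (a * (((z n).im : ℝ) - (z 0).im) - b * (((z n).re : ℝ) - (z 0).re)) ^ 2
      ≤ (2 * |h|) ^ 2 := by
    rw [← sq_abs (a * (((z n).im : ℝ) - (z 0).im) - b * (((z n).re : ℝ) - (z 0).re))]
    exact pow_le_pow_left₀ (abs_nonneg _) h4 2
  nlinarith [mul_nonneg hL (abs_nonneg h)]

end Vale.Agent.P015.Strips
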