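import Mathlib
import Vale.Agent.Lib.P015.Strip
import Vale.Agent.Lib.P015.Poly

/-! P015: no bounded-step walk on distinct Gaussian primes follows a curve that is locally straight
at infinity. -/

namespace Vale.Agent.P015.Curve

open Filter Topology

theorem fol_cs (a b : ℝ) (hab : a ^ 2 + b ^ 2 = 1) (w : ℂ) : |a * w.im - b * w.re| ≤ ‖w‖ := by
  have h1 : (a * w.im - b * w.re) ^ 2 ≤ ‖w‖ ^ 2 := by
    have h2 : ‖w‖ ^ 2 = w.re ^ 2 + w.im ^ 2 := by
      rw [← Complex.normSq_eq_norm_sq, Complex.normSq_apply]; ring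
    rw [h2]
    have h3 : (a ^ 2 + b ^ 2) * (w.re ^ 2 + w.im ^ 2) =
        (a * w.im - b * w.re) ^ 2 + (a * w.re + b * w.im) ^ 2 := by ring
    rw [hab, one_mul] at h3
    rw [h3]
    nlinarith [sq_nonneg (a * w.re + b * w.im)]
  exact abs_le_of_sq_le_sq h1 (norm_nonneg _)

theorem fol_escape (z : ℕ → GaussianInt) (hz : Function.Injective z) (M : ℝ) :
    ∀ᶠ k in atTop, M < ‖((z k : GaussianInt) : ℂ)‖ := by
  obtain ⟨W, hW⟩ := small_finite ⌈M ^ 2⌉
  have hfin : (z ⁻¹' (W : Set GaussianInt)).Finite :=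
    W.finite_toSet.preimage hz.injOn
  have h1 : ∀ᶠ k in atTop, k ∉ z ⁻¹' (W : Set GaussianInt) := by
    rw [← Nat.cofinite_eq_atTop]
    exact hfin.compl_mem_cofinite
  filter_upwards [h1] with k hk
  by_contra hcon
  push Not at hcon
  apply hk
  show z k ∈ (W : Set GaussianInt)
  rw [Finset.mem_coe]
  refine hW _ ?_
  have h2 := norm_cast_sq (z k)
  have h3 : ((Zsqrtd.norm (z k) : ℤ) : ℝ) ≤ M ^ 2 := by
    rw [h2]; exact pow_le_pow_left₀ (norm_nonneg _) hcon 2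
  exact_mod_cast h3.trans (Int.le_ceil _)

/-- walks near a quasi-geodesic curve that is locally straight at infinity are finite -/
theorem follow (γ : ℝ → ℂ) (κ K C h₀ : ℝ) (hκ : 0 < κ)
    (hlow : ∀ s t : ℝ, 0 ≤ s → 0 ≤ t → κ * |s - t| - C ≤ ‖γ s - γ t‖)
    (hup : ∀ s t : ℝ, 0 ≤ s → 0 ≤ t → ‖γ s - γ t‖ ≤ K * |s - t| + C)
    (hstraight : ∀ B : ℝ, ∃ T₀ : ℝ, ∀ T : ℝ, T₀ ≤ T → ∃ a b c : ℝ, a ^ 2 + b ^ 2 = 1 ∧
      ∀ t : ℝ, 0 ≤ t → |t - T| ≤ B → |a * (γ t).im - b * (γ t).re - c| ≤ h₀)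
    (D ρ : ℝ) :
    ¬ ∃ z : ℕ → GaussianInt, Function.Injective z ∧ (∀ k, Prime (z k)) ∧
      (∀ k, ‖((z (k + 1) : GaussianInt) : ℂ) - (z k : ℂ)‖ ≤ D) ∧
      ∀ k, ∃ t : ℝ, 0 ≤ t ∧ ‖((z k : GaussianInt) : ℂ) - γ t‖ ≤ ρ := by
  rintro ⟨z, hinj, hpr, hstep, htube⟩
  choose t ht0 ht using htube
  have hD : 0 ≤ D := (norm_nonneg _).trans (hstep 0)
  have hρ : 0 ≤ ρ := (norm_nonneg _).trans (ht 0)
  obtain ⟨L, r, hL, hS⟩ := Vale.Agent.P015.Strips.strip D (h₀ + ρ)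
  -- consecutive parameters
  have htri : ∀ k l, ‖γ (t k) - γ (t l)‖ ≤
      ‖((z k : GaussianInt) : ℂ) - (z l : ℂ)‖ + 2 * ρ := by
    intro k l
    have e : γ (t k) - γ (t l) = ((((z k : GaussianInt) : ℂ) - (z l : ℂ)) -
        (((z k : GaussianInt) : ℂ) - γ (t k))) + (((z l : GaussianInt) : ℂ) - γ (t l)) := by ring
    rw [e]
    have h1 := norm_add_le ((((z k : GaussianInt) : ℂ) - (z l : ℂ)) -
        (((z k : GaussianInt) : ℂ) - γ (t k))) (((z l : GaussianInt) : ℂ) - γ (t l))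
    have h2 := norm_sub_le (((z k : GaussianInt) : ℂ) - (z l : ℂ))
        (((z k : GaussianInt) : ℂ) - γ (t k))
    have h3 := ht k
    have h4 := ht l
    linarith
  set B0 : ℝ := (D + 2 * ρ + C) / κ with hB0
  have hstepT : ∀ k, |t (k + 1) - t k| ≤ B0 := by
    intro k
    rw [hB0, le_div_iff₀ hκ]
    have h1 := hlow (t (k + 1)) (t k) (ht0 _) (ht0 _)
    have h2 := htri (k + 1) k
    have h3 := hstep k
    nlinarith
  have hB0' : 0 ≤ B0 := (abs_nonneg _).trans (hstepT 0)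
  -- the parameters tend to infinity
  have htinf : ∀ T : ℝ, ∀ᶠ k in atTop, T < t k := by
    intro T
    filter_upwards [fol_escape z hinj (‖γ 0‖ + |K| * |T| + C + ρ)] with k hk
    by_contra hcon
    push Not at hcon
    have h1 := hup (t k) 0 (ht0 _) le_rfl
    have h2 : |t k - 0| ≤ |T| := by
      rw [sub_zero, abs_of_nonneg (ht0 k)]
      exact hcon.trans (le_abs_self _)
    have h3 : K * |t k - 0| ≤ |K| * |T| :=
      (mul_le_mul_of_nonneg_right (le_abs_self K) (abs_nonneg _)).trans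
        (mul_le_mul_of_nonneg_left h2 (abs_nonneg K))
    have h4 : ((z k : GaussianInt) : ℂ) =
        ((((z k : GaussianInt) : ℂ) - γ (t k)) + (γ (t k) - γ 0)) + γ 0 := by ring
    have h5 := norm_add_le ((((z k : GaussianInt) : ℂ) - γ (t k)) + (γ (t k) - γ 0)) (γ 0)
    have h6 := norm_add_le (((z k : GaussianInt) : ℂ) - γ (t k)) (γ (t k) - γ 0)
    rw [← h4] at h5
    have h7 := ht k
    linarith
  set B1 : ℝ := |(L + C + 2 * ρ + 1) / κ| with hB1
  have hB1' : 0 ≤ B1 := abs_nonneg _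
  have hB1k : L + C + 2 * ρ + 1 ≤ κ * B1 := by
    have h1 : (L + C + 2 * ρ + 1) / κ ≤ B1 := le_abs_self _
    rw [div_le_iff₀ hκ] at h1
    linarith
  obtain ⟨T0, hT0⟩ := hstraight (B1 + B0)
  obtain ⟨k0, hk0⟩ := eventually_atTop.1 ((htinf T0).and (fol_escape z hinj (|r| + 1)))
  have hex : ∃ n, B1 ≤ |t (k0 + n) - t k0| := by
    obtain ⟨k1, hk1⟩ := eventually_atTop.1 (htinf (t k0 + B1))
    refine ⟨k1, ?_⟩
    have h1 := hk1 (k0 + k1) (by omega)
    exact le_trans (by linarith) (le_abs_self _)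
  classical
  obtain ⟨n, hn, hmin⟩ : ∃ n, B1 ≤ |t (k0 + n) - t k0| ∧
      ∀ i < n, |t (k0 + i) - t k0| < B1 :=
    ⟨Nat.find hex, Nat.find_spec hex, fun i hi => not_le.1 (Nat.find_min hex hi)⟩
  have hwin : ∀ i ≤ n, |t (k0 + i) - t k0| ≤ B1 + B0 := by
    intro i hi
    rcases hi.lt_or_eq with h | h
    · exact (hmin i h).le.trans (by linarith)
    · rw [h]
      rcases Nat.eq_zero_or_pos n with h0 | h0
      · rw [h0]; simp; linarith
      · obtain ⟨m, rfl⟩ : ∃ m, n = m + 1 := ⟨n - 1, by omega⟩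
        have h1 := hmin m (by omega)
        have h2 := hstepT (k0 + m)
        have h3 := abs_add_le (t (k0 + m + 1) - t (k0 + m)) (t (k0 + m) - t k0)
        have h4 : t (k0 + m + 1) - t (k0 + m) + (t (k0 + m) - t k0) =
            t (k0 + (m + 1)) - t k0 := by rw [add_assoc]; ring
        rw [h4] at h3
        linarith
  obtain ⟨a, b, c, hab, hline⟩ := hT0 (t k0) (hk0 k0 le_rfl).1.le
  have hfin := hS a b c hab n (fun i => z (k0 + i)) (fun i _ => hpr _) ?_ ?_ ?_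
  · have h1 : ((Zsqrtd.norm (z (k0 + n) - z k0) : ℤ) : ℝ) ≤ L ^ 2 := hfin
    rw [norm_cast_sq, GaussianInt.toComplex_sub] at h1
    have h2 : ‖((z (k0 + n) : GaussianInt) : ℂ) - (z k0 : ℂ)‖ ≤ L :=
      abs_le_of_sq_le_sq' h1 hL |>.2
    have h3 := htri (k0 + n) k0
    have h4 := hlow (t (k0 + n)) (t k0) (ht0 _) (ht0 _)
    have h5 : κ * B1 ≤ κ * |t (k0 + n) - t k0| := mul_le_mul_of_nonneg_left hn hκ.le
    linarith
  · intro i _
    have h1 := (hk0 (k0 + i) (by omega)).2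
    show r < ((Zsqrtd.norm (z (k0 + i)) : ℤ) : ℝ)
    rw [norm_cast_sq]
    have h2 := le_abs_self r
    have h3 := abs_nonneg r
    nlinarith
  · intro i _
    show ((Zsqrtd.norm (z (k0 + (i + 1)) - z (k0 + i)) : ℤ) : ℝ) ≤ D ^ 2
    rw [norm_cast_sq, GaussianInt.toComplex_sub]
    exact pow_le_pow_left₀ (norm_nonneg _) (hstep (k0 + i)) 2
  · intro i hi
    show |a * ((z (k0 + i)).im : ℝ) - b * ((z (k0 + i)).re : ℝ) - c| ≤ h₀ + ρ
    have h1 := hline (t (k0 + i)) (ht0 _) (hwin i hi)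
    have h2 := fol_cs a b hab (((z (k0 + i) : GaussianInt) : ℂ) - γ (t (k0 + i)))
    have h3 := ht (k0 + i)
    have h4 : a * ((z (k0 + i)).im : ℝ) - b * ((z (k0 + i)).re : ℝ) - c =
        (a * (γ (t (k0 + i))).im - b * (γ (t (k0 + i))).re - c) +
          (a * (((z (k0 + i) : GaussianInt) : ℂ) - γ (t (k0 + i))).im -
            b * (((z (k0 + i) : GaussianInt) : ℂ) - γ (t (k0 + i))).re) := by
      rw [Complex.sub_im, Complex.sub_re, ← GaussianInt.intCast_re, ← GaussianInt.intCast_im]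
      ring
    rw [h4]
    exact (abs_add_le _ _).trans (by linarith)

end Vale.Agent.P015.Curve
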