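import Mathlib
import Vale.Agent.Lib.P015.Follow

/-! P015: curves with an asymptotic direction; all complex polynomial curves. -/

namespace Vale.Agent.P015.Curve

open Filter Topology

theorem dir_est (γ v : ℝ → ℂ) (c : ℂ) (t₁ ε : ℝ) (h0 : 0 ≤ t₁)
    (hd : ∀ t : ℝ, 0 ≤ t → HasDerivAt γ (v t) t) (hv : ∀ t : ℝ, t₁ ≤ t → ‖v t - c‖ ≤ ε)
    (s t : ℝ) (hs : t₁ ≤ s) (ht : t₁ ≤ t) : ‖γ s - γ t - ((s - t : ℝ) : ℂ) * c‖ ≤ ε * |s - t| := by
  have h := Convex.norm_image_sub_le_of_norm_hasDerivWithin_le (𝕜 := ℝ)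
    (f := fun x : ℝ => γ x - (x : ℂ) * c) (f' := fun x => v x - c) (C := ε) (s := Set.Ici t₁)
    (x := t) (y := s) (fun x hx => by
      have h1 : HasDerivAt (fun x : ℝ => (x : ℂ) * c) (1 * c) x :=
        (HasDerivAt.ofReal_comp (hasDerivAt_id x)).mul_const c |> fun h => by simpa using h
      rw [one_mul] at h1
      exact ((hd x (h0.trans hx)).sub h1).hasDerivWithinAt) (fun x hx => hv x hx)
    (convex_Ici t₁) ht hs
  rw [Real.norm_eq_abs] at h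
  have e : γ s - γ t - ((s - t : ℝ) : ℂ) * c = (γ s - (s : ℂ) * c) - (γ t - (t : ℂ) * c) := by
    push_cast; ring
  rw [e]
  exact h

/-- no infinite walk near a curve whose velocity has a nonzero limit -/
theorem dir_moat (γ v : ℝ → ℂ) (c : ℂ) (hc : c ≠ 0)
    (hd : ∀ t : ℝ, 0 ≤ t → HasDerivAt γ (v t) t) (hv : Tendsto v atTop (𝓝 c)) (D ρ : ℝ) :
    ¬ ∃ z : ℕ → GaussianInt, Function.Injective z ∧ (∀ k, Prime (z k)) ∧
      (∀ k, ‖((z (k + 1) : GaussianInt) : ℂ) - (z k : ℂ)‖ ≤ D) ∧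
      ∀ k, ∃ t : ℝ, 0 ≤ t ∧ ‖((z k : GaussianInt) : ℂ) - γ t‖ ≤ ρ := by
  have hc0 : 0 < ‖c‖ := norm_pos_iff.2 hc
  have hev : ∀ ε : ℝ, 0 < ε → ∃ t₁ : ℝ, 0 ≤ t₁ ∧ ∀ t : ℝ, t₁ ≤ t → ‖v t - c‖ ≤ ε := by
    intro ε hε
    have h1 : ∀ᶠ t in atTop, ‖v t - c‖ < ε := by
      have := Metric.tendsto_nhds.1 hv ε hε
      simpa [dist_eq_norm] using this
    obtain ⟨T, hT⟩ := eventually_atTop.1 h1
    exact ⟨|T|, abs_nonneg _, fun t ht => (hT t ((le_abs_self T).trans ht)).le⟩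
  obtain ⟨t₁, ht₁, hv₁⟩ := hev (‖c‖ / 2) (by positivity)
  have hcont : ContinuousOn γ (Set.Icc 0 t₁) := fun x hx =>
    (hd x hx.1).continuousAt.continuousWithinAt
  obtain ⟨M, hM⟩ := (isCompact_Icc (a := (0 : ℝ)) (b := t₁)).exists_bound_of_continuousOn hcont
  rintro ⟨z, hinj, hpr, hstep, htube⟩
  refine follow (fun s => γ (t₁ + s)) (‖c‖ / 2) (3 * ‖c‖ / 2) 0 1 (by positivity) ?_ ?_ ?_ D
    (ρ + 2 * M) ⟨z, hinj, hpr, hstep, ?_⟩
  · intro s t hs ht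
    have h := dir_est γ v c t₁ _ ht₁ hd hv₁ (t₁ + s) (t₁ + t) (by linarith) (by linarith)
    have e : t₁ + s - (t₁ + t) = s - t := by ring
    rw [e] at h
    have h1 : ‖((s - t : ℝ) : ℂ) * c‖ = |s - t| * ‖c‖ := by
      rw [norm_mul, Complex.norm_real, Real.norm_eq_abs]
    have h2 := norm_sub_norm_le (((s - t : ℝ) : ℂ) * c) (γ (t₁ + s) - γ (t₁ + t))
    rw [norm_sub_rev (((s - t : ℝ) : ℂ) * c) (γ (t₁ + s) - γ (t₁ + t))] at h2
    show ‖c‖ / 2 * |s - t| - 0 ≤ ‖γ (t₁ + s) - γ (t₁ + t)‖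
    linarith
  · intro s t hs ht
    have h := dir_est γ v c t₁ _ ht₁ hd hv₁ (t₁ + s) (t₁ + t) (by linarith) (by linarith)
    have e : t₁ + s - (t₁ + t) = s - t := by ring
    rw [e] at h
    have h1 : ‖((s - t : ℝ) : ℂ) * c‖ = |s - t| * ‖c‖ := by
      rw [norm_mul, Complex.norm_real, Real.norm_eq_abs]
    have h2 := norm_sub_norm_le (γ (t₁ + s) - γ (t₁ + t)) (((s - t : ℝ) : ℂ) * c)
    show ‖γ (t₁ + s) - γ (t₁ + t)‖ ≤ 3 * ‖c‖ / 2 * |s - t| + 0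
    linarith
  · intro B
    obtain ⟨t₂, ht₂, hv₂⟩ := hev (1 / (|B| + 1)) (by positivity)
    refine ⟨t₂ + |B|, fun T hT => ?_⟩
    have hab : (c.re / ‖c‖) ^ 2 + (c.im / ‖c‖) ^ 2 = 1 := by
      have h2 : ‖c‖ ^ 2 = c.re ^ 2 + c.im ^ 2 := by
        rw [← Complex.normSq_eq_norm_sq, Complex.normSq_apply]; ring
      rw [div_pow, div_pow, ← add_div, ← h2, div_self (by positivity)]
    refine ⟨c.re / ‖c‖, c.im / ‖c‖,
      c.re / ‖c‖ * (γ (t₁ + T)).im - c.im / ‖c‖ * (γ (t₁ + T)).re, hab, ?_⟩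
    intro t ht htT
    have hB := le_abs_self B
    have htT' := abs_le.1 htT
    have h := dir_est γ v c t₂ _ ht₂ hd hv₂ (t₁ + t) (t₁ + T) (by linarith)
      (by linarith [abs_nonneg B])
    have e : t₁ + t - (t₁ + T) = t - T := by ring
    rw [e] at h
    have h3 : 1 / (|B| + 1) * |t - T| ≤ 1 := by
      rw [div_mul_eq_mul_div, one_mul, div_le_one (by positivity)]
      linarith
    have h4 := fol_cs _ _ hab (γ (t₁ + t) - γ (t₁ + T) - ((t - T : ℝ) : ℂ) * c)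
    have h5 : c.re / ‖c‖ * (γ (t₁ + t)).im - c.im / ‖c‖ * (γ (t₁ + t)).re -
        (c.re / ‖c‖ * (γ (t₁ + T)).im - c.im / ‖c‖ * (γ (t₁ + T)).re) =
        c.re / ‖c‖ * (γ (t₁ + t) - γ (t₁ + T) - ((t - T : ℝ) : ℂ) * c).im -
          c.im / ‖c‖ * (γ (t₁ + t) - γ (t₁ + T) - ((t - T : ℝ) : ℂ) * c).re := by
      simp only [Complex.sub_im, Complex.sub_re, Complex.re_ofReal_mul, Complex.im_ofReal_mul]
      ring
    show |c.re / ‖c‖ * (γ (t₁ + t)).im - c.im / ‖c‖ * (γ (t₁ + t)).re -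
        (c.re / ‖c‖ * (γ (t₁ + T)).im - c.im / ‖c‖ * (γ (t₁ + T)).re)| ≤ 1
    rw [h5]
    exact h4.trans (h.trans h3)
  · intro k
    obtain ⟨t, ht0, ht⟩ := htube k
    rcases le_or_gt t₁ t with h | h
    · refine ⟨t - t₁, by linarith, ?_⟩
      have e : t₁ + (t - t₁) = t := by ring
      show ‖((z k : GaussianInt) : ℂ) - γ (t₁ + (t - t₁))‖ ≤ ρ + 2 * M
      rw [e]
      have := (norm_nonneg _).trans (hM t₁ ⟨ht₁, le_rfl⟩)
      linarith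
    · refine ⟨0, le_rfl, ?_⟩
      show ‖((z k : GaussianInt) : ℂ) - γ (t₁ + 0)‖ ≤ ρ + 2 * M
      rw [add_zero]
      have h1 := hM t₁ ⟨ht₁, le_rfl⟩
      have h2 := hM t ⟨ht0, h.le⟩
      have e : ((z k : GaussianInt) : ℂ) - γ t₁ =
          ((((z k : GaussianInt) : ℂ) - γ t) + γ t) - γ t₁ := by ring
      rw [e]
      have h3 := norm_sub_le ((((z k : GaussianInt) : ℂ) - γ t) + γ t) (γ t₁)
      have h4 := norm_add_le (((z k : GaussianInt) : ℂ) - γ t) (γ t)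
      linarith

end Vale.Agent.P015.Curve
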