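import Mathlib
import Vale.Agent.Lib.P015.Dir

/-! P015: all complex polynomial curves. -/

namespace Vale.Agent.P015.Curve

open Filter Topology

/-- no infinite walk near the curve `{p(t) : t ≥ 0}`, `p` any nonconstant complex polynomial -/
theorem cpoly_moat (p : Polynomial ℂ) (hp : 0 < p.natDegree) (D ρ : ℝ) :
    ¬ ∃ z : ℕ → GaussianInt, Function.Injective z ∧ (∀ k, Prime (z k)) ∧
      (∀ k, ‖((z (k + 1) : GaussianInt) : ℂ) - (z k : ℂ)‖ ≤ D) ∧
      ∀ k, ∃ t : ℝ, 0 ≤ t ∧ ‖((z k : GaussianInt) : ℂ) - p.eval (t : ℂ)‖ ≤ ρ := by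
  obtain ⟨m, hm⟩ : ∃ m, p.natDegree = m + 1 := ⟨p.natDegree - 1, by omega⟩
  set α : ℝ := 1 / ((m : ℝ) + 1) with hα
  have hm1 : (0 : ℝ) < (m : ℝ) + 1 := by positivity
  have hα0 : 0 < α := by positivity
  have hαm : α * ((m : ℝ) + 1) = 1 := by rw [hα]; field_simp
  have hqd : p.derivative.natDegree ≤ m := by
    have : p.derivative.natDegree ≤ p.natDegree - 1 := Polynomial.natDegree_derivative_le p
    omega
  have hc0 : p.derivative.coeff m ≠ 0 := by
    rw [Polynomial.coeff_derivative]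
    refine mul_ne_zero ?_ (by exact_mod_cast Nat.succ_ne_zero m)
    rw [← hm]
    have hne : p ≠ 0 := by
      intro h
      rw [h] at hp
      simp at hp
    exact Polynomial.leadingCoeff_ne_zero.2 hne
  set ψ : ℝ → ℝ := fun s => (1 + s) ^ α with hψ
  have hψpos : ∀ s : ℝ, 0 ≤ s → 0 < ψ s := fun s hs => Real.rpow_pos_of_pos (by linarith) _
  have hψd : ∀ s : ℝ, 0 ≤ s → HasDerivAt ψ (α / ψ s ^ m) s := by
    intro s hs
    have h1 : HasDerivAt (fun x : ℝ => 1 + x) 1 s := (hasDerivAt_id s).const_add 1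
    have h2 := h1.rpow_const (p := α) (Or.inl (by positivity))
    have h3 : 1 * α * (1 + s) ^ (α - 1) = α / ψ s ^ m := by
      rw [hψ]
      have h4 : ((1 + s) ^ α) ^ m = (1 + s) ^ (1 - α) := by
        rw [← Real.rpow_natCast, ← Real.rpow_mul (by linarith)]
        congr 1
        linarith
      show 1 * α * (1 + s) ^ (α - 1) = α / ((1 + s) ^ α) ^ m
      rw [h4, div_eq_mul_inv, ← Real.rpow_neg (by linarith), neg_sub, one_mul]
    rw [h3] at h2
    exact h2
  have hψinf : Tendsto ψ atTop atTop := by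
    have h1 : Tendsto (fun s : ℝ => 1 + s) atTop atTop := tendsto_atTop_add_const_left _ _ tendsto_id
    exact (tendsto_rpow_atTop hα0).comp h1
  rintro ⟨z, hinj, hpr, hstep, htube⟩
  have hcont : Continuous fun x : ℝ => p.eval (x : ℂ) :=
    p.continuous.comp Complex.continuous_ofReal
  obtain ⟨M, hM⟩ := (isCompact_Icc (a := (0 : ℝ)) (b := 1)).exists_bound_of_continuousOn
    hcont.continuousOn
  refine dir_moat (fun s => p.eval ((ψ s : ℝ) : ℂ))
    (fun s => p.derivative.eval ((ψ s : ℝ) : ℂ) * (((α / ψ s ^ m : ℝ)) : ℂ))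
    (p.derivative.coeff m * (α : ℂ)) (mul_ne_zero hc0 (by exact_mod_cast hα0.ne')) ?_ ?_ D
    (ρ + 2 * M) ⟨z, hinj, hpr, hstep, ?_⟩
  · intro s hs
    exact (p.hasDerivAt ((ψ s : ℝ) : ℂ)).comp s (hψd s hs).ofReal_comp
  · have h1 := (tube_coeff_tendsto p.derivative m hqd).comp hψinf
    have h2 := h1.mul_const (α : ℂ)
    refine Tendsto.congr' ?_ h2
    filter_upwards [eventually_ge_atTop (0 : ℝ)] with s hs
    have h3 : ((ψ s : ℝ) : ℂ) ≠ 0 := by exact_mod_cast (hψpos s hs).ne'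
    simp only [Function.comp]
    push_cast
    field_simp
  · intro k
    obtain ⟨t, ht0, ht⟩ := htube k
    have h1 := hM 1 ⟨zero_le_one, le_rfl⟩
    have hM0 : 0 ≤ M := (norm_nonneg _).trans h1
    rcases le_or_gt 1 t with h | h
    · refine ⟨t ^ ((m : ℝ) + 1) - 1, by linarith [Real.one_le_rpow h hm1.le], ?_⟩
      have e : ψ (t ^ ((m : ℝ) + 1) - 1) = t := by
        show (1 + (t ^ ((m : ℝ) + 1) - 1)) ^ α = t
        rw [add_sub_cancel, ← Real.rpow_mul ht0, mul_comm, hαm, Real.rpow_one]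
      show ‖((z k : GaussianInt) : ℂ) - p.eval ((ψ (t ^ ((m : ℝ) + 1) - 1) : ℝ) : ℂ)‖ ≤ ρ + 2 * M
      rw [e]
      linarith
    · refine ⟨0, le_rfl, ?_⟩
      have e : ψ 0 = 1 := by
        show (1 + (0 : ℝ)) ^ α = 1
        rw [add_zero, Real.one_rpow]
      show ‖((z k : GaussianInt) : ℂ) - p.eval ((ψ 0 : ℝ) : ℂ)‖ ≤ ρ + 2 * M
      rw [e]
      have h2 := hM t ⟨ht0, h.le⟩
      have e2 : ((z k : GaussianInt) : ℂ) - p.eval ((1 : ℝ) : ℂ) =
          ((((z k : GaussianInt) : ℂ) - p.eval (t : ℂ)) + p.eval (t : ℂ)) -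
            p.eval ((1 : ℝ) : ℂ) := by ring
      rw [e2]
      have h3 := norm_sub_le ((((z k : GaussianInt) : ℂ) - p.eval (t : ℂ)) + p.eval (t : ℂ))
        (p.eval ((1 : ℝ) : ℂ))
      have h4 := norm_add_le (((z k : GaussianInt) : ℂ) - p.eval (t : ℂ)) (p.eval (t : ℂ))
      linarith

end Vale.Agent.P015.Curve
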