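import Mathlib

/-! P015 (Gaussian moats): prime-free boxes on every arithmetic progression of Gaussian integers with
primitive difference, with a modulus which does not depend on the difference. -/

namespace Vale.Agent.P015.Strips

open Finset

/-- a Gaussian prime whose norm is divisible by the rational prime `p` has norm at most `p ^ 2` -/
theorem norm_le_of_dvd {z : GaussianInt} (hz : Prime z) {p : ℕ} (hp : p.Prime)
    (h : (p : ℤ) ∣ z.norm) : z.norm ≤ (p : ℤ) ^ 2 := by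
  have hpnorm : ((p : ℤ) : GaussianInt).norm = (p : ℤ) ^ 2 := by
    rw [Zsqrtd.norm_intCast]; ring
  have hp0 : (0 : ℤ) < (p : ℤ) ^ 2 := by
    have := hp.pos
    positivity
  -- an irreducible factor of p
  have hpnu : ¬ IsUnit ((p : ℤ) : GaussianInt) := by
    intro hu
    have h1 := (Zsqrtd.norm_eq_one_iff (d := -1)).2 hu
    rw [hpnorm] at h1
    have h2 : ((p : ℤ) ^ 2).natAbs = p ^ 2 := by
      rw [Int.natAbs_pow, Int.natAbs_natCast]
    rw [h2] at h1
    have h3 := hp.two_le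
    nlinarith
  have hpne : ((p : ℤ) : GaussianInt) ≠ 0 := by
    intro h0
    rw [h0, Zsqrtd.norm_zero] at hpnorm
    omega
  obtain ⟨π, hπ, hπp⟩ := WfDvdMonoid.exists_irreducible_factor hpnu hpne
  have hπprime : Prime π := hπ.prime
  have hdvd : π ∣ z * star z := by
    rw [← Zsqrtd.norm_eq_mul_conj]
    obtain ⟨m, hm⟩ := h
    rw [hm]
    push_cast
    exact Dvd.dvd.mul_right (by exact_mod_cast hπp) _
  have key : z ∣ ((p : ℤ) : GaussianInt) ∨ star z ∣ ((p : ℤ) : GaussianInt) := by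
    rcases hπprime.dvd_or_dvd hdvd with h1 | h1
    · left
      exact ((hπ.dvd_symm hz.irreducible h1)).trans hπp
    · right
      have h2 : star π ∣ z := by
        obtain ⟨w, hw⟩ := h1
        refine ⟨star w, ?_⟩
        rw [← star_star z, hw, star_mul, mul_comm]
      have h3 : z ∣ star π := by
        obtain ⟨w, hw⟩ := h2
        rcases hz.irreducible.isUnit_or_isUnit hw with h4 | h4
        · exfalso
          apply hπ.not_isUnit
          have := h4.star
          rwa [star_star] at this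
        · obtain ⟨u, hu⟩ := h4
          refine ⟨((u⁻¹ : (GaussianInt)ˣ) : GaussianInt), ?_⟩
          rw [hw, ← hu, mul_assoc, Units.mul_inv, mul_one]
      have h5 : star z ∣ π := by
        obtain ⟨w, hw⟩ := h3
        refine ⟨star w, ?_⟩
        rw [← star_star π, hw, star_mul, mul_comm]
      exact h5.trans hπp
  have hle : ∀ w : GaussianInt, w ∣ ((p : ℤ) : GaussianInt) → w.norm ≤ (p : ℤ) ^ 2 := by
    intro w hw
    obtain ⟨m, hm⟩ := hw
    have h1 : w.norm * m.norm = (p : ℤ) ^ 2 := by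
      rw [← Zsqrtd.norm_mul, ← hm, hpnorm]
    exact Int.le_of_dvd hp0 ⟨m.norm, h1.symm⟩
  rcases key with h1 | h1
  · exact hle z h1
  · have := hle _ h1
    rwa [Zsqrtd.norm_conj] at this

/-- solving the congruence at one prime -/
theorem exists_k {p : ℕ} (hp : p.Prime) (h4 : p ≡ 1 [MOD 4]) {v1 v2 : ℤ} (hv : IsCoprime v1 v2)
    (X Y : ℤ) : ∃ k : ℕ, (p : ℤ) ∣ (X + k * v1) ^ 2 + (Y + k * v2) ^ 2 := by
  have : Fact p.Prime := ⟨hp⟩
  have h4' : p % 4 = 1 := h4
  have hsq : IsSquare (-1 : ZMod p) := by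
    rw [ZMod.exists_sq_eq_neg_one_iff]
    omega
  obtain ⟨t, ht⟩ := hsq
  have hp2 : (2 : ZMod p) ≠ 0 := by
    intro h0
    have h1 : ((2 : ℕ) : ZMod p) = 0 := by exact_mod_cast h0
    rw [ZMod.natCast_eq_zero_iff] at h1
    have h2 := Nat.le_of_dvd (by norm_num) h1
    have h3 := hp.two_le
    have h5 : p = 2 := le_antisymm h2 h3
    omega
  have hroot : ∃ τ : ZMod p, τ * τ = -1 ∧ (v1 : ZMod p) + τ * (v2 : ZMod p) ≠ 0 := by
    by_contra hcon
    push Not at hcon
    have e1 := hcon t ht.symm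
    have e2 := hcon (-t) (by rw [neg_mul_neg]; exact ht.symm)
    have e3 : (2 : ZMod p) * (v1 : ZMod p) = 0 := by linear_combination e1 + e2
    have e4 : (v1 : ZMod p) = 0 := by
      rcases mul_eq_zero.1 e3 with h | h
      · exact absurd h hp2
      · exact h
    have e5 : (v2 : ZMod p) = 0 := by
      rw [e4, zero_add] at e1
      have : t * (t * (v2 : ZMod p)) = 0 := by rw [e1, mul_zero]
      rw [← mul_assoc, ← ht] at this
      simpa using this
    rw [ZMod.intCast_zmod_eq_zero_iff_dvd] at e4 e5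
    obtain ⟨a, b, hab⟩ := hv
    have h1 : (p : ℤ) ∣ 1 := by
      rw [← hab]
      exact dvd_add (Dvd.dvd.mul_left e4 a) (Dvd.dvd.mul_left e5 b)
    have h2 := Int.le_of_dvd one_pos h1
    have h3 := hp.two_le
    omega
  obtain ⟨τ, hτ, hne⟩ := hroot
  set κ : ZMod p := -((X : ZMod p) + τ * (Y : ZMod p)) / ((v1 : ZMod p) + τ * (v2 : ZMod p)) with hκ
  refine ⟨κ.val, ?_⟩
  rw [← ZMod.intCast_zmod_eq_zero_iff_dvd]
  push_cast
  rw [ZMod.natCast_zmod_val]
  have h1 : ((X : ZMod p) + κ * v1) + τ * ((Y : ZMod p) + κ * v2) = 0 := by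
    have : κ * ((v1 : ZMod p) + τ * (v2 : ZMod p)) = -((X : ZMod p) + τ * (Y : ZMod p)) := by
      rw [hκ, div_mul_cancel₀ _ hne]
    linear_combination this
  linear_combination (((X : ZMod p) + κ * v1) - τ * ((Y : ZMod p) + κ * v2)) * h1
    + ((Y : ZMod p) + κ * v2) ^ 2 * hτ

theorem exists_primes : ∃ f : ℕ → ℕ, Function.Injective f ∧ ∀ n, (f n).Prime ∧ f n ≡ 1 [MOD 4] := by
  have h := Nat.infinite_setOfPred_prime_modEq_one (k := 4) (by norm_num)
  let e := h.natEmbedding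
  exact ⟨fun n => (e n : ℕ), fun a b hab => e.injective (Subtype.ext hab), fun n => (e n).2⟩

/-- prime-free boxes on progressions, uniformly in the primitive difference -/
theorem core (N : ℕ) : ∃ M : ℕ, 0 < M ∧ ∀ v1 v2 : ℤ, IsCoprime v1 v2 → ∀ x0 y0 : ℤ,
    ∃ k : ℕ, k < M ∧ ∀ s t : ℤ, |s| ≤ N → |t| ≤ N →
      (M : ℤ) ^ 2 < (x0 + k * v1 + s) ^ 2 + (y0 + k * v2 + t) ^ 2 →
        ¬ Prime (⟨x0 + k * v1 + s, y0 + k * v2 + t⟩ : GaussianInt) := by
  obtain ⟨f, hf, hfp⟩ := exists_primes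
  let K : Finset (ℤ × ℤ) := Icc (-(N : ℤ)) N ×ˢ Icc (-(N : ℤ)) N
  let p : ℤ × ℤ → ℕ := fun b => f (Encodable.encode b)
  have hp : ∀ b, (p b).Prime := fun b => (hfp _).1
  have hp4 : ∀ b, p b ≡ 1 [MOD 4] := fun b => (hfp _).2
  have hpinj : ∀ b b', p b = p b' → b = b' := fun b b' h => Encodable.encode_injective (hf h)
  refine ⟨∏ b ∈ K, p b, Finset.prod_pos fun b _ => (hp b).pos, ?_⟩
  intro v1 v2 hv x0 y0
  choose g hg using fun b : ℤ × ℤ => exists_k (hp b) (hp4 b) hv (x0 + b.1) (y0 + b.2)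
  have hs : ∀ b ∈ K, p b ≠ 0 := fun b _ => (hp b).ne_zero
  have pp : Set.Pairwise (K : Set (ℤ × ℤ)) (Function.onFun Nat.Coprime p) := by
    intro b _ b' _ hbb
    exact (Nat.coprime_primes (hp b) (hp b')).2 fun h => hbb (hpinj b b' h)
  refine ⟨Nat.chineseRemainderOfFinset g p K hs pp, Nat.chineseRemainderOfFinset_lt_prod g p hs pp,
    ?_⟩
  have hk := (Nat.chineseRemainderOfFinset g p K hs pp).2
  set k : ℕ := (Nat.chineseRemainderOfFinset g p K hs pp : ℕ) with hkdef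
  intro s t hs1 ht1 hbig hprime
  have hb : (s, t) ∈ K := by
    rw [Finset.mem_product, Finset.mem_Icc, Finset.mem_Icc]
    exact ⟨abs_le.1 hs1, abs_le.1 ht1⟩
  have hmod := hk (s, t) hb
  have hd := hg (s, t)
  have hd2 : ((p (s, t) : ℕ) : ℤ) ∣ (x0 + k * v1 + s) ^ 2 + (y0 + k * v2 + t) ^ 2 := by
    have hm : ((k : ℕ) : ℤ) ≡ (g (s, t) : ℤ) [ZMOD (p (s, t) : ℕ)] := by
      exact_mod_cast (Int.natCast_modEq_iff).2 hmod
    rw [← Int.modEq_zero_iff_dvd] at hd ⊢
    refine Int.ModEq.trans ?_ hd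
    have e1 : x0 + k * v1 + s ≡ x0 + s + (g (s, t) : ℤ) * v1 [ZMOD (p (s, t) : ℕ)] := by
      have : x0 + k * v1 + s = x0 + s + k * v1 := by ring
      rw [this]
      exact Int.ModEq.add_left _ (hm.mul_right _)
    have e2 : y0 + k * v2 + t ≡ y0 + t + (g (s, t) : ℤ) * v2 [ZMOD (p (s, t) : ℕ)] := by
      have : y0 + k * v2 + t = y0 + t + k * v2 := by ring
      rw [this]
      exact Int.ModEq.add_left _ (hm.mul_right _)
    exact (e1.pow 2).add (e2.pow 2)
  have hnorm : (⟨x0 + k * v1 + s, y0 + k * v2 + t⟩ : GaussianInt).norm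
      = (x0 + k * v1 + s) ^ 2 + (y0 + k * v2 + t) ^ 2 := by
    simp only [Zsqrtd.norm]
    ring
  have h1 := norm_le_of_dvd hprime (hp (s, t)) (by rw [hnorm]; exact hd2)
  rw [hnorm] at h1
  have h2 : p (s, t) ≤ ∏ b ∈ K, p b :=
    Nat.le_of_dvd (Finset.prod_pos fun b _ => (hp b).pos) (Finset.dvd_prod_of_mem _ hb)
  have h3 : ((p (s, t) : ℕ) : ℤ) ^ 2 ≤ ((∏ b ∈ K, p b : ℕ) : ℤ) ^ 2 := by
    have : ((p (s, t) : ℕ) : ℤ) ≤ ((∏ b ∈ K, p b : ℕ) : ℤ) := by exact_mod_cast h2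
    exact pow_le_pow_left₀ (by positivity) this 2
  linarith

end Vale.Agent.P015.Strips
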