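import Vale.Agent.Lib.P015.Strip

/-! P015 (Gaussian moats): no walk through Gaussian primes with bounded steps follows an
asymptotically straight curve. -/

namespace Vale.Agent.P015.Strips

open Filter

/-- `γ` is asymptotically straight, with unit directions `u` -/
def AsymStraight (γ : ℝ → ℂ) : Prop :=
  ∃ u : ℝ → ℂ, (∀ t, ‖u t‖ = 1) ∧ ∀ S ε : ℝ, 0 < ε →
    ∃ T : ℝ, ∀ t, T ≤ t → ∀ s, 0 ≤ s → s ≤ S → ‖γ (t + s) - γ t - s * u t‖ ≤ ε

theorem norm_cast_sub (z w : GaussianInt) :
    ((z - w).norm : ℝ) = ‖((z : GaussianInt) : ℂ) - (w : ℂ)‖ ^ 2 := by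
  rw [GaussianInt.intCast_real_norm, Complex.normSq_eq_norm_sq, GaussianInt.toComplex_sub]

/-- component orthogonal to the unit vector `u` -/
theorem perp_le {u e : ℂ} (hu : ‖u‖ = 1) (s : ℝ) :
    |u.re * ((s * u + e).im) - u.im * ((s * u + e).re)| ≤ ‖e‖ := by
  have h1 : u.re * ((s * u + e).im) - u.im * ((s * u + e).re) = (e * (starRingEnd ℂ) u).im := by
    simp only [Complex.add_im, Complex.add_re, Complex.mul_im, Complex.mul_re, Complex.ofReal_re,
      Complex.ofReal_im, Complex.conj_re, Complex.conj_im]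
    ring
  rw [h1]
  calc |(e * (starRingEnd ℂ) u).im| ≤ ‖e * (starRingEnd ℂ) u‖ := Complex.abs_im_le_norm _
    _ = ‖e‖ := by rw [norm_mul, RCLike.norm_conj, hu, mul_one]

/-- the window of a walk which follows the curve -/
theorem window {t : ℕ → ℝ} {C A W : ℝ} (ht : Tendsto t atTop atTop)
    (hstep : ∀ k, |t (k + 1) - t k| ≤ C) (h0 : t 0 < A) (hC : 0 ≤ C) (hW : C < W) :
    ∃ K n : ℕ, (∀ i ≤ n, A ≤ t (K + i) ∧ t (K + i) ≤ A + W + C) ∧ t K ≤ A + C ∧
      A + W < t (K + n) := by
  classical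
  have hE : ∃ K : ℕ, ∀ k, K ≤ k → A ≤ t k := by
    obtain ⟨K, hK⟩ := (tendsto_atTop.1 ht A).exists_forall_of_atTop
    exact ⟨K, hK⟩
  obtain ⟨K, hK, hmin⟩ : ∃ K : ℕ, (∀ k, K ≤ k → A ≤ t k) ∧ t K ≤ A + C := by
    have h1 := Nat.find_spec hE
    rcases Nat.eq_zero_or_pos (Nat.find hE) with h2 | h2
    · rw [h2] at h1
      exact absurd (h1 0 le_rfl) (not_le.2 h0)
    · obtain ⟨j, hj⟩ : ∃ j, Nat.find hE = j + 1 := ⟨Nat.find hE - 1, by omega⟩
      refine ⟨Nat.find hE, h1, ?_⟩
      have h3 := Nat.find_min hE (m := j) (by omega)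
      push Not at h3
      obtain ⟨k, hk1, hk2⟩ := h3
      have h4 : k = j := by
        by_contra hne
        have := h1 k (by omega)
        linarith
      rw [h4] at hk2
      rw [hj]
      have := abs_le.1 (hstep j)
      linarith
  have hF : ∃ n : ℕ, A + W < t (K + n) := by
    obtain ⟨N, hN⟩ := (tendsto_atTop.1 ht (A + W + 1)).exists_forall_of_atTop
    refine ⟨N, ?_⟩
    have := hN (K + N) (by omega)
    linarith
  refine ⟨K, Nat.find hF, ?_, hmin, Nat.find_spec hF⟩
  intro i hi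
  refine ⟨hK _ (by omega), ?_⟩
  rcases Nat.lt_or_ge i (Nat.find hF) with h1 | h1
  · have := Nat.find_min hF h1
    push Not at this
    linarith
  · have h2 : i = Nat.find hF := le_antisymm hi h1
    rcases Nat.eq_zero_or_pos i with h3 | h3
    · rw [h3]
      simp only [add_zero]
      linarith
    · obtain ⟨j, rfl⟩ : ∃ j, i = j + 1 := ⟨i - 1, by omega⟩
      have h4 := Nat.find_min hF (m := j) (by omega)
      push Not at h4
      have := abs_le.1 (hstep (K + j))
      rw [← add_assoc]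
      linarith

/-- no walk through Gaussian primes follows an asymptotically straight curve at bounded distance -/
theorem curve (γ : ℝ → ℂ) (hγ : AsymStraight γ) (hinf : Tendsto (fun t => ‖γ t‖) atTop atTop)
    (C ρ : ℝ) : ¬ ∃ (z : ℕ → GaussianInt) (t : ℕ → ℝ), (∀ k, Prime (z k)) ∧
      Tendsto t atTop atTop ∧ (∀ k, |t (k + 1) - t k| ≤ C) ∧
      ∀ k, ‖((z k : GaussianInt) : ℂ) - γ (t k)‖ ≤ ρ := by
  rintro ⟨z, t, hprime, ht, hstep, hnear⟩
  obtain ⟨u, hu, hstraight⟩ := hγ
  have hC : 0 ≤ C := (abs_nonneg _).trans (hstep 0)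
  have hρ : 0 ≤ ρ := (norm_nonneg _).trans (hnear 0)
  obtain ⟨L, r, hL, H⟩ := strip (2 * ρ + C + 2) (ρ + 1)
  set W : ℝ := L + C + 2 * ρ + 3 with hWdef
  obtain ⟨T1, hT1⟩ := hstraight (W + C) 1 one_pos
  obtain ⟨T2, hT2⟩ := (tendsto_atTop.1 hinf (|r| + ρ + 2)).exists_forall_of_atTop
  set A : ℝ := max (max T1 T2) (t 0 + 1) with hA
  have hA1 : T1 ≤ A := (le_max_left _ _).trans (le_max_left _ _)
  have hA2 : T2 ≤ A := (le_max_right _ _).trans (le_max_left _ _)
  have hA0 : t 0 < A := lt_of_lt_of_le (by linarith) (le_max_right _ _)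
  obtain ⟨K, n, hwin, hKC, hn⟩ := window ht hstep hA0 hC (W := W) (by linarith)
  have hu1 := hu A
  -- decomposition of the points of the window
  have hdec : ∀ i ≤ n, ‖((z (K + i) : GaussianInt) : ℂ) - γ A - ((t (K + i) - A : ℝ) : ℂ) * u A‖
      ≤ ρ + 1 := by
    intro i hi
    obtain ⟨h1, h2⟩ := hwin i hi
    have h3 := hT1 A hA1 (t (K + i) - A) (by linarith) (by linarith)
    rw [show A + (t (K + i) - A) = t (K + i) by ring] at h3
    have h4 := hnear (K + i)
    calc _ = ‖(((z (K + i) : GaussianInt) : ℂ) - γ (t (K + i)))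
          + (γ (t (K + i)) - γ A - ((t (K + i) - A : ℝ) : ℂ) * u A)‖ := by
          congr 1
          ring
      _ ≤ ρ + 1 := (norm_add_le _ _).trans (add_le_add h4 h3)
  have hmain := H (u A).re (u A).im ((u A).re * (γ A).im - (u A).im * (γ A).re) (by
    have := Complex.sq_norm (u A)
    rw [hu1, Complex.normSq_apply] at this
    nlinarith) n (fun i => z (K + i)) (fun i _ => hprime _) (by
      intro i hi
      obtain ⟨h1, _⟩ := hwin i hi
      have h2 := hT2 (t (K + i)) (by linarith)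
      have h3 := hnear (K + i)
      have h4 : |r| + 2 ≤ ‖((z (K + i) : GaussianInt) : ℂ)‖ := by
        have h5 : ‖γ (t (K + i))‖ ≤ ‖((z (K + i) : GaussianInt) : ℂ)‖
            + ‖((z (K + i) : GaussianInt) : ℂ) - γ (t (K + i))‖ := by
          have := norm_sub_norm_le (γ (t (K + i))) ((z (K + i) : GaussianInt) : ℂ)
          rw [norm_sub_rev] at this
          linarith
        linarith
      rw [GaussianInt.intCast_real_norm, Complex.normSq_eq_norm_sq]
      have h6 := le_abs_self r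
      nlinarith [abs_nonneg r]) (by
      intro i hi
      have h1 := hdec i hi.le
      have h2 := hdec (i + 1) hi
      have h3 := hstep (K + i)
      show ((z (K + (i + 1)) - z (K + i)).norm : ℝ) ≤ (2 * ρ + C + 2) ^ 2
      rw [norm_cast_sub]
      refine pow_le_pow_left₀ (norm_nonneg _) ?_ 2
      have h4 : ((z (K + (i + 1)) : GaussianInt) : ℂ) - (z (K + i) : ℂ)
          = (((z (K + (i + 1)) : GaussianInt) : ℂ) - γ A
              - ((t (K + (i + 1)) - A : ℝ) : ℂ) * u A)
            - (((z (K + i) : GaussianInt) : ℂ) - γ A - ((t (K + i) - A : ℝ) : ℂ) * u A)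
            + ((t (K + i + 1) - t (K + i) : ℝ) : ℂ) * u A := by
        rw [← add_assoc]
        push_cast
        ring
      rw [h4]
      calc _ ≤ (ρ + 1) + (ρ + 1) + C := by
            refine (norm_add_le _ _).trans (add_le_add ((norm_sub_le _ _).trans
              (add_le_add h2 h1)) ?_)
            rw [norm_mul, hu1, mul_one, Complex.norm_real, Real.norm_eq_abs]
            exact h3
        _ = 2 * ρ + C + 2 := by ring) (by
      intro i hi
      have h1 := hdec i hi
      have h2 := perp_le (u := u A) (e := ((z (K + i) : GaussianInt) : ℂ) - γ A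
        - ((t (K + i) - A : ℝ) : ℂ) * u A) hu1 (t (K + i) - A)
      have h3 : ((t (K + i) - A : ℝ) : ℂ) * u A + (((z (K + i) : GaussianInt) : ℂ) - γ A
        - ((t (K + i) - A : ℝ) : ℂ) * u A) = ((z (K + i) : GaussianInt) : ℂ) - γ A := by ring
      rw [h3] at h2
      refine le_trans (le_of_eq ?_) (h2.trans h1)
      congr 1
      rw [Complex.sub_im, Complex.sub_re, GaussianInt.toComplex_def]
      simp
      ring)
  -- the window is long
  have h0 := hdec 0 (Nat.zero_le n)
  have hn' := hdec n le_rfl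
  have hlong : L < ‖((z (K + n) : GaussianInt) : ℂ) - (z (K + 0) : ℂ)‖ := by
    have h4 : ((t (K + n) - t (K + 0) : ℝ) : ℂ) * u A
        = (((z (K + n) : GaussianInt) : ℂ) - (z (K + 0) : ℂ))
          - (((z (K + n) : GaussianInt) : ℂ) - γ A - ((t (K + n) - A : ℝ) : ℂ) * u A)
          + (((z (K + 0) : GaussianInt) : ℂ) - γ A - ((t (K + 0) - A : ℝ) : ℂ) * u A) := by
      push_cast
      ring
    have h5 : ‖((t (K + n) - t (K + 0) : ℝ) : ℂ) * u A‖ = |t (K + n) - t (K + 0)| := by
      rw [norm_mul, hu1, mul_one, Complex.norm_real, Real.norm_eq_abs]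
    have h6 : ‖((t (K + n) - t (K + 0) : ℝ) : ℂ) * u A‖
        ≤ ‖((z (K + n) : GaussianInt) : ℂ) - (z (K + 0) : ℂ)‖ + (ρ + 1) + (ρ + 1) := by
      rw [h4]
      exact (norm_add_le _ _).trans (add_le_add ((norm_sub_le _ _).trans
        (add_le_add le_rfl hn')) h0)
    rw [h5] at h6
    have h7 : t (K + 0) ≤ A + C := by simpa using hKC
    have h8 := le_abs_self (t (K + n) - t (K + 0))
    linarith
  have h9 : ((z (K + n) - z (K + 0)).norm : ℝ) ≤ L ^ 2 := hmain
  rw [norm_cast_sub] at h9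
  have h10 := pow_lt_pow_left₀ hlong hL (two_ne_zero)
  linarith

end Vale.Agent.P015.Strips
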