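import Vale.Agent.Lib.P015.Moat

/-!
P015: prime-free discs centred on an arbitrary line, and walks near a line.
-/

namespace Vale.Agent.P015

open GaussianInt

/-- rotated coordinate of `z` relative to the line `p + ℝ v` -/
noncomputable def W (p v z : ℂ) : ℂ := (z - p) * (starRingEnd ℂ) v

theorem W_sub (p v z w : ℂ) : W p v z - W p v w = (z - w) * (starRingEnd ℂ) v := by
  unfold W; ring

theorem norm_conj {v : ℂ} (hv : ‖v‖ = 1) (z : ℂ) : ‖z * (starRingEnd ℂ) v‖ = ‖z‖ := by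
  rw [norm_mul, RCLike.norm_conj, hv, mul_one]

theorem norm_real (z : GaussianInt) : (z.norm : ℝ) = ‖(z : ℂ)‖ ^ 2 := by
  rw [GaussianInt.intCast_real_norm, Complex.normSq_eq_norm_sq]

theorem abs_re_ge (z : ℂ) : ‖z‖ - |z.im| ≤ |z.re| := by
  have := Complex.norm_le_abs_re_add_abs_im z
  linarith

/-- the basic prime-free region: `A = α P` is close to the direction `v`, at distance between `P`
and `3 P ^ 2`, and no Gaussian prime `q` far from `0` has `1 < |q - A|^2 ≤ m`, nor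
`1 < |q + A|^2 ≤ m` -/
theorem line_core (v : ℂ) (hv : ‖v‖ = 1) (m : ℕ) :
    ∃ A : GaussianInt, |((A : ℂ) * (starRingEnd ℂ) v).im| ≤ 1 ∧
      (primorial m : ℝ) - 1 ≤ ((A : ℂ) * (starRingEnd ℂ) v).re ∧
      ‖(A : ℂ)‖ ≤ 3 * (primorial m : ℝ) ^ 2 ∧
      ∀ q : GaussianInt, (m : ℝ) < ‖(q : ℂ)‖ ^ 2 →
        ((1 < ‖(q : ℂ) - (A : ℂ)‖ ∧ ‖(q : ℂ) - (A : ℂ)‖ ^ 2 ≤ m) ∨
         (1 < ‖(q : ℂ) + (A : ℂ)‖ ∧ ‖(q : ℂ) + (A : ℂ)‖ ^ 2 ≤ m)) → ¬ Prime q := by
  set P : ℕ := primorial m with hP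
  have hP0 : 0 < P := primorial_pos m
  have hP1 : (1:ℝ) ≤ P := by exact_mod_cast hP0
  obtain ⟨α, hα0, hα1, hα2⟩ := dirichlet v hv P hP0
  have hαn : (1:ℝ) ≤ ‖(α : ℂ)‖ := by
    have h1 : 0 < α.norm := GaussianInt.norm_pos.2 hα0
    have h2 : (1:ℝ) ≤ (α.norm : ℝ) := by exact_mod_cast h1
    rw [norm_real] at h2
    nlinarith [norm_nonneg (α : ℂ)]
  -- basic facts on `α P`
  have hfree : ∀ β : GaussianInt, ∀ q : GaussianInt, (m : ℝ) < ‖(q : ℂ)‖ ^ 2 →
      1 < ‖(q : ℂ) - ((β * (P : GaussianInt) : GaussianInt) : ℂ)‖ →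
      ‖(q : ℂ) - ((β * (P : GaussianInt) : GaussianInt) : ℂ)‖ ^ 2 ≤ m → ¬ Prime q := by
    intro β q hq h1 h2
    have e1 : (((q - β * (P : GaussianInt)).norm : ℤ) : ℝ) =
        ‖(q : ℂ) - ((β * (P : GaussianInt) : GaussianInt) : ℂ)‖ ^ 2 := by
      rw [norm_real, GaussianInt.toComplex_sub]
    have h3 : 1 < (q - β * (P : GaussianInt)).norm := by
      have : (1:ℝ) < (((q - β * (P : GaussianInt)).norm : ℤ) : ℝ) := by
        rw [e1]; nlinarith
      exact_mod_cast this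
    have h4 : (q - β * (P : GaussianInt)).norm ≤ (m : ℤ) := by
      have : (((q - β * (P : GaussianInt)).norm : ℤ) : ℝ) ≤ ((m : ℤ) : ℝ) := by
        rw [e1]; exact_mod_cast h2
      exact_mod_cast this
    have h5 : β * ((primorial m : ℕ) : GaussianInt) + (q - β * (P : GaussianInt)) = q := by
      rw [← hP]; ring
    have h6 : (m : ℤ) < q.norm := by
      have : ((m : ℤ) : ℝ) < ((q.norm : ℤ) : ℝ) := by
        rw [norm_real]; exact_mod_cast hq
      exact_mod_cast this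
    have h7 := not_prime m β (q - β * (P : GaussianInt)) h3 h4 (by rw [h5]; exact h6)
    rwa [h5] at h7
  have hcast : ∀ β : GaussianInt, ((β * (P : GaussianInt) : GaussianInt) : ℂ) = (β : ℂ) * (P : ℂ) := by
    intro β
    rw [GaussianInt.toComplex_mul, map_natCast]
  have himm : |((α : ℂ) * (P : ℂ) * (starRingEnd ℂ) v).im| ≤ 1 := by
    have e1 : (α : ℂ) * (P : ℂ) * (starRingEnd ℂ) v = ((P : ℝ) : ℂ) * ((α : ℂ) * (starRingEnd ℂ) v) := by
      push_cast; ring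
    rw [e1, Complex.im_ofReal_mul, abs_mul, abs_of_pos (by linarith : (0:ℝ) < P)]
    calc (P:ℝ) * |((α : ℂ) * (starRingEnd ℂ) v).im| ≤ P * (1 / P) :=
          mul_le_mul_of_nonneg_left hα2 (by linarith)
      _ = 1 := by field_simp
  have hnorm : ‖(α : ℂ) * (P : ℂ)‖ = ‖(α : ℂ)‖ * P := by
    rw [norm_mul]
    simp
  have hre : (P : ℝ) - 1 ≤ |((α : ℂ) * (P : ℂ) * (starRingEnd ℂ) v).re| := by
    have h1 := abs_re_ge ((α : ℂ) * (P : ℂ) * (starRingEnd ℂ) v)
    rw [norm_conj hv, hnorm] at h1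
    nlinarith
  have hup : ‖(α : ℂ) * (P : ℂ)‖ ≤ 3 * (P : ℝ) ^ 2 := by
    rw [hnorm]
    nlinarith
  rcases le_total 0 ((α : ℂ) * (P : ℂ) * (starRingEnd ℂ) v).re with h0 | h0
  · refine ⟨α * (P : GaussianInt), ?_, ?_, ?_, ?_⟩
    · rw [hcast]; exact himm
    · rw [hcast]; rwa [abs_of_nonneg h0] at hre
    · rw [hcast]; exact hup
    · intro q hq h
      rcases h with ⟨h1, h2⟩ | ⟨h1, h2⟩
      · exact hfree α q hq h1 h2
      · refine hfree (-α) q hq ?_ ?_
        · rw [hcast] at h1 ⊢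
          simpa [GaussianInt.toComplex_neg] using h1
        · rw [hcast] at h2 ⊢
          simpa [GaussianInt.toComplex_neg] using h2
  · refine ⟨(-α) * (P : GaussianInt), ?_, ?_, ?_, ?_⟩
    · rw [hcast, GaussianInt.toComplex_neg, neg_mul, neg_mul, Complex.neg_im, abs_neg]; exact himm
    · rw [hcast, GaussianInt.toComplex_neg, neg_mul, neg_mul, Complex.neg_re]
      rwa [abs_of_nonpos h0] at hre
    · rw [hcast, GaussianInt.toComplex_neg, neg_mul, norm_neg]; exact hup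
    · intro q hq h
      rcases h with ⟨h1, h2⟩ | ⟨h1, h2⟩
      · exact hfree (-α) q hq h1 h2
      · refine hfree α q hq ?_ ?_
        · rw [hcast] at h1 ⊢
          simpa [GaussianInt.toComplex_neg, sub_eq_add_neg] using h1
        · rw [hcast] at h2 ⊢
          simpa [GaussianInt.toComplex_neg, sub_eq_add_neg] using h2

/-- prime-free discs of every radius, centred on every line -/
theorem line_discs (p v : ℂ) (hv : ‖v‖ = 1) (R : ℝ) :
    ∃ t : ℝ, ∀ q : GaussianInt, ‖(q : ℂ) - (p + t * v)‖ ≤ R → ¬ Prime q := by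
  rcases lt_or_ge R 0 with hR | hR
  · exact ⟨0, fun q hq => absurd (lt_of_lt_of_le hR (norm_nonneg _)) (not_lt.2 hq) ⟩
  obtain ⟨m, hm⟩ := exists_nat_ge ((3 * R + ‖p‖ + 3) ^ 2)
  obtain ⟨A, hA1, hA2, _, hA4⟩ := line_core v hv m
  have hp0 := norm_nonneg p
  have hmP : (m : ℝ) ≤ primorial m := by exact_mod_cast le_primorial_self
  set a : ℂ := (A : ℂ) * (starRingEnd ℂ) v with ha
  set b : ℂ := p * (starRingEnd ℂ) v with hb
  have hbn : ‖b‖ = ‖p‖ := norm_conj hv p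
  have hbi : |b.im| ≤ ‖p‖ := by rw [← hbn]; exact Complex.abs_im_le_norm b
  have hbr : |b.re| ≤ ‖p‖ := by rw [← hbn]; exact Complex.abs_re_le_norm b
  -- centre
  refine ⟨a.re - b.re + (R + 2), fun q hq => ?_⟩
  have hvv : v * (starRingEnd ℂ) v = 1 := by
    rw [Complex.mul_conj, Complex.normSq_eq_norm_sq, hv]; simp
  have e1 : ((q : ℂ) - (p + ((a.re - b.re + (R + 2) : ℝ) : ℂ) * v)) * (starRingEnd ℂ) v =
      ((q : ℂ) - (A : ℂ)) * (starRingEnd ℂ) v + (a - b - ((a.re - b.re + (R + 2) : ℝ) : ℂ)) := by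
    rw [ha, hb]
    linear_combination (-((((A : ℂ) * (starRingEnd ℂ) v).re - (p * (starRingEnd ℂ) v).re + (R + 2) : ℝ) : ℂ)) * hvv
  set w : ℂ := ((q : ℂ) - (A : ℂ)) * (starRingEnd ℂ) v with hw
  have hwn : ‖w‖ = ‖(q : ℂ) - (A : ℂ)‖ := norm_conj hv _
  have e2 : ‖w + (a - b - ((a.re - b.re + (R + 2) : ℝ) : ℂ))‖ ≤ R := by
    rw [← e1, norm_conj hv]; exact hq
  have hre : |w.re - (R + 2)| ≤ R := by
    refine le_trans (le_of_eq ?_) ((Complex.abs_re_le_norm _).trans e2)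
    congr 1
    simp
    ring
  have him : |w.im + (a.im - b.im)| ≤ R := by
    refine le_trans (le_of_eq ?_) ((Complex.abs_im_le_norm _).trans e2)
    congr 1
    simp
  rw [abs_le] at hre him hA1 hbi hbr
  have hw1 : 1 < ‖w‖ := by
    have := Complex.re_le_norm w
    linarith [hre.1]
  have hw2 : ‖w‖ ≤ 3 * R + ‖p‖ + 3 := by
    have h1 := Complex.norm_le_abs_re_add_abs_im w
    have h2 : |w.re| ≤ 2 * R + 2 := by
      rw [abs_le]; constructor <;> linarith [hre.1, hre.2]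
    have h3 : |w.im| ≤ R + 1 + ‖p‖ := by
      rw [abs_le]; constructor <;> linarith [him.1, him.2, hA1.1, hA1.2, hbi.1, hbi.2]
    linarith
  have hbig : (m : ℝ) < ‖(q : ℂ)‖ ^ 2 := by
    have e3 : ((q : ℂ) * (starRingEnd ℂ) v).re = w.re + a.re := by
      rw [hw, ha, sub_mul, Complex.sub_re]; ring
    have h1 : ((q : ℂ) * (starRingEnd ℂ) v).re ≤ ‖(q : ℂ)‖ := by
      rw [← norm_conj hv (q : ℂ)]; exact Complex.re_le_norm _
    have h2 : (m : ℝ) + 1 ≤ ‖(q : ℂ)‖ := by linarith [hre.1]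
    have h3 : (0:ℝ) ≤ m := Nat.cast_nonneg m
    nlinarith
  refine hA4 q hbig (Or.inl ⟨by rw [← hwn]; exact hw1, ?_⟩)
  rw [← hwn]
  have h4 := norm_nonneg w
  nlinarith

/-- numerical estimate -/
theorem line_est (m : ℕ) (D H c N P : ℝ) (hD : 0 ≤ D) (hH : 0 ≤ H) (hc : 0 ≤ c) (hN : 0 ≤ N)
    (hP : 1 ≤ P) (hPm : P ≤ 4 ^ m) (hN2 : N ≤ 3 * P ^ 2 + (2 + D) + (H + c))
    (hH2 : H ≤ 1 / 2 * Real.sqrt (Real.log (2 + N)))
    (hm : 6 * ((2 + D) ^ 2 + (7 + D + c) + 11 * c ^ 2) ≤ m) :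
    (2 + D) ^ 2 + (H + c) ^ 2 ≤ m := by
  have hlog0 : 0 ≤ Real.log (2 + N) := Real.log_nonneg (by linarith)
  have h1 : H ^ 2 ≤ 1 / 4 * Real.log (2 + N) := by
    have h2 := Real.sq_sqrt hlog0
    have h3 := Real.sqrt_nonneg (Real.log (2 + N))
    nlinarith
  have hP2 : (1:ℝ) ≤ P ^ 2 := by nlinarith
  have h2 : Real.log (2 + N) ≤ 2 * Real.log P + (6 + D + c + H) := by
    have h3 : 2 + N ≤ P ^ 2 * (7 + D + c + H) := by nlinarith
    have h4 : Real.log (2 + N) ≤ Real.log (P ^ 2 * (7 + D + c + H)) :=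
      Real.log_le_log (by linarith) h3
    rw [Real.log_mul (by positivity) (by positivity), Real.log_pow] at h4
    have h5 := Real.log_le_sub_one_of_pos (show (0:ℝ) < 7 + D + c + H by positivity)
    push_cast at h4
    linarith
  have h3 : Real.log P ≤ m * 1.3863 := by
    have h4 : Real.log P ≤ Real.log ((4:ℝ) ^ m) := Real.log_le_log (by linarith) hPm
    rw [Real.log_pow] at h4
    have h5 : Real.log 4 ≤ 1.3863 := by
      have : (4:ℝ) = 2 ^ 2 := by norm_num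
      rw [this, Real.log_pow]
      have := Real.log_two_lt_d9
      push_cast
      linarith
    have h6 : (m:ℝ) * Real.log 4 ≤ m * 1.3863 :=
      mul_le_mul_of_nonneg_left h5 (Nat.cast_nonneg m)
    linarith
  have h4 : H ^ 2 ≤ 0.69315 * m + (6 + D + c + H) / 4 := by linarith
  have h5 : H ≤ H ^ 2 / 4 + 1 := by nlinarith [sq_nonneg (H - 2)]
  have h6 : (H + c) ^ 2 ≤ 1.1 * H ^ 2 + 11 * c ^ 2 := by nlinarith [sq_nonneg (H - 10 * c)]
  have h7 : (0:ℝ) ≤ c ^ 2 := sq_nonneg c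
  have h8 : (0:ℝ) ≤ (2 + D) ^ 2 := sq_nonneg _
  linarith

/-- bounded sets of Gaussian integers are finite -/
theorem finite_ball (B : ℝ) : Set.Finite {g : GaussianInt | ‖(g : ℂ)‖ ≤ B} := by
  refine (((Set.finite_Icc (-⌈B⌉) ⌈B⌉).prod (Set.finite_Icc (-⌈B⌉) ⌈B⌉)).image
    (fun ab : ℤ × ℤ => (⟨ab.1, ab.2⟩ : GaussianInt))).subset ?_
  intro g hg
  have hg' : ‖(g : ℂ)‖ ≤ B := hg
  have h1 : |(g.re : ℝ)| ≤ B := by
    rw [GaussianInt.intCast_re]; exact (Complex.abs_re_le_norm _).trans hg'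
  have h2 : |(g.im : ℝ)| ≤ B := by
    rw [GaussianInt.intCast_im]; exact (Complex.abs_im_le_norm _).trans hg'
  have hc := Int.le_ceil B
  refine ⟨(g.re, g.im), ⟨⟨?_, ?_⟩, ⟨?_, ?_⟩⟩, rfl⟩
  · have : ((-⌈B⌉ : ℤ) : ℝ) ≤ (g.re : ℝ) := by push_cast; linarith [(abs_le.1 h1).1]
    exact_mod_cast this
  · have : (g.re : ℝ) ≤ ((⌈B⌉ : ℤ) : ℝ) := by linarith [(abs_le.1 h1).2]
    exact_mod_cast this
  · have : ((-⌈B⌉ : ℤ) : ℝ) ≤ (g.im : ℝ) := by push_cast; linarith [(abs_le.1 h2).1]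
    exact_mod_cast this
  · have : (g.im : ℝ) ≤ ((⌈B⌉ : ℤ) : ℝ) := by linarith [(abs_le.1 h2).2]
    exact_mod_cast this

/-- crossing: a real sequence with steps at most `D` which starts below `S` and reaches `S` has
a value in `[S, S + D]` -/
theorem line_cross (s : ℕ → ℝ) (D S : ℝ) (h : ∀ n, s (n + 1) ≤ s n + D) (h0 : s 0 < S) (n : ℕ)
    (hn : S ≤ s n) : ∃ k, S ≤ s k ∧ s k ≤ S + D := by
  classical
  have hex : ∃ n, S ≤ s n := ⟨n, hn⟩
  have h1 := Nat.find_spec hex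
  have h2 : Nat.find hex ≠ 0 := by
    intro h3
    rw [h3] at h1
    linarith
  obtain ⟨k, hk⟩ := Nat.exists_eq_succ_of_ne_zero h2
  have h3 : ¬ S ≤ s k := Nat.find_min hex (by omega)
  refine ⟨k + 1, ?_, ?_⟩
  · have : Nat.find hex = k + 1 := hk
    rw [this] at h1
    exact h1
  · have := h k
    push Not at h3
    linarith

/-- no bounded-step walk through Gaussian primes stays near a line -/
theorem line_walk (p v : ℂ) (hv : ‖v‖ = 1) (D : ℝ) (z : ℕ → GaussianInt)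
    (hinj : Function.Injective z) (hpr : ∀ n, Prime (z n))
    (hstep : ∀ n, ‖(z (n + 1) : ℂ) - (z n : ℂ)‖ ≤ D)
    (hnear : ∀ n, |(((z n : ℂ) - p) * (starRingEnd ℂ) v).im| ≤
      1 / 2 * Real.sqrt (Real.log (2 + ‖(z n : ℂ)‖))) : False := by
  have hD : 0 ≤ D := (_root_.norm_nonneg _).trans (hstep 0)
  have hp0 := norm_nonneg p
  set b : ℂ := p * (starRingEnd ℂ) v with hb
  have hbn : ‖b‖ = ‖p‖ := norm_conj hv p
  have hbi : |b.im| ≤ ‖p‖ := by rw [← hbn]; exact Complex.abs_im_le_norm b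
  set H : ℕ → ℝ := fun n => |(((z n : ℂ) - p) * (starRingEnd ℂ) v).im| with hHdef
  have hH0 : ∀ n, 0 ≤ H n := fun n => abs_nonneg _
  set s : ℕ → ℝ := fun n => ((z n : ℂ) * (starRingEnd ℂ) v).re with hs
  have him : ∀ n, |((z n : ℂ) * (starRingEnd ℂ) v).im| ≤ H n + ‖p‖ := by
    intro n
    have e1 : ((z n : ℂ) * (starRingEnd ℂ) v).im =
        (((z n : ℂ) - p) * (starRingEnd ℂ) v).im + b.im := by
      rw [hb, sub_mul, Complex.sub_im]; ring
    rw [e1]
    exact (abs_add_le _ _).trans (add_le_add le_rfl hbi)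
  -- the walk is unbounded in the direction of the line
  have hunb : ∀ S : ℝ, ∃ n, S ≤ |s n| := by
    intro S
    by_contra hcon
    push Not at hcon
    have hB : ∀ n, ‖(z n : ℂ)‖ ≤ 3 * (|S| + ‖p‖ + 2) := by
      intro n
      have h1 : ‖(z n : ℂ)‖ ≤ |S| + (H n + ‖p‖) := by
        rw [← norm_conj hv (z n : ℂ)]
        refine (Complex.norm_le_abs_re_add_abs_im _).trans (add_le_add ?_ (him n))
        exact (hcon n).le.trans (le_abs_self S)
      have hlog0 : 0 ≤ Real.log (2 + ‖(z n : ℂ)‖) :=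
        Real.log_nonneg (by linarith [norm_nonneg (z n : ℂ)])
      have h2 : H n ^ 2 ≤ 1 / 4 * Real.log (2 + ‖(z n : ℂ)‖) := by
        have h3 := Real.sq_sqrt hlog0
        have h4 := Real.sqrt_nonneg (Real.log (2 + ‖(z n : ℂ)‖))
        have h5 := hnear n
        have h6 := hH0 n
        have h7 : H n ≤ 1 / 2 * Real.sqrt (Real.log (2 + ‖(z n : ℂ)‖)) := h5
        nlinarith
      have h3 : Real.log (2 + ‖(z n : ℂ)‖) ≤ 1 + ‖(z n : ℂ)‖ := by
        have := Real.log_le_sub_one_of_pos (show (0:ℝ) < 2 + ‖(z n : ℂ)‖ by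
          linarith [norm_nonneg (z n : ℂ)])
        linarith
      have h4 : H n ≤ |S| + ‖p‖ + 2 := by
        by_contra h5
        push Not at h5
        have h6 := abs_nonneg S
        nlinarith
      have h6 := abs_nonneg S
      linarith
    have h1 := Set.infinite_range_of_injective hinj
    exact h1 ((finite_ball (3 * (|S| + ‖p‖ + 2))).subset (by
      rintro _ ⟨n, rfl⟩
      exact hB n))
  -- choice of `m`
  obtain ⟨m, hm⟩ := exists_nat_ge (6 * ((2 + D) ^ 2 + (7 + D + (‖p‖ + 1)) +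
    11 * (‖p‖ + 1) ^ 2) + |s 0|)
  have hs0 := abs_nonneg (s 0)
  have hm1 : 6 * ((2 + D) ^ 2 + (7 + D + (‖p‖ + 1)) + 11 * (‖p‖ + 1) ^ 2) ≤ m := by linarith
  have hm2 : |s 0| ≤ m := by
    have : 0 ≤ 6 * ((2 + D) ^ 2 + (7 + D + (‖p‖ + 1)) + 11 * (‖p‖ + 1) ^ 2) := by positivity
    linarith
  obtain ⟨A, hA1, hA2, hA3, hA4⟩ := line_core v hv m
  have hmP : (m : ℝ) ≤ primorial m := by exact_mod_cast le_primorial_self
  have hP1 : (1:ℝ) ≤ primorial m := by exact_mod_cast primorial_pos m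
  have hP4 : (primorial m : ℝ) ≤ 4 ^ m := by exact_mod_cast primorial_le_four_pow m
  set a : ℂ := (A : ℂ) * (starRingEnd ℂ) v with ha
  -- a vertex in the moat is impossible
  have hmoat : ∀ (n : ℕ) (B : GaussianInt), (B = A ∨ B = -A) →
      2 ≤ |s n - ((B : ℂ) * (starRingEnd ℂ) v).re| →
      |s n - ((B : ℂ) * (starRingEnd ℂ) v).re| ≤ 2 + D → (m : ℝ) + 1 ≤ |s n| → False := by
    intro n B hB h1 h2 h3
    have hBn : ‖(B : ℂ)‖ ≤ 3 * (primorial m : ℝ) ^ 2 := by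
      rcases hB with rfl | rfl
      · exact hA3
      · rw [GaussianInt.toComplex_neg, norm_neg]; exact hA3
    have hBi : |((B : ℂ) * (starRingEnd ℂ) v).im| ≤ 1 := by
      rcases hB with rfl | rfl
      · exact hA1
      · rw [GaussianInt.toComplex_neg, neg_mul, Complex.neg_im, abs_neg]; exact hA1
    set w : ℂ := ((z n : ℂ) - (B : ℂ)) * (starRingEnd ℂ) v with hw
    have hwn : ‖w‖ = ‖(z n : ℂ) - (B : ℂ)‖ := norm_conj hv _
    have hwre : w.re = s n - ((B : ℂ) * (starRingEnd ℂ) v).re := by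
      rw [hw, sub_mul, Complex.sub_re]
    have hwim : |w.im| ≤ H n + (‖p‖ + 1) := by
      have e1 : w.im = ((z n : ℂ) * (starRingEnd ℂ) v).im - ((B : ℂ) * (starRingEnd ℂ) v).im := by
        rw [hw, sub_mul, Complex.sub_im]
      rw [e1]
      have := abs_sub (((z n : ℂ) * (starRingEnd ℂ) v).im) (((B : ℂ) * (starRingEnd ℂ) v).im)
      linarith [him n]
    have hw1 : 1 < ‖w‖ := by
      have := Complex.abs_re_le_norm w
      rw [hwre] at this
      linarith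
    have hwle : ‖w‖ ≤ (2 + D) + (H n + (‖p‖ + 1)) := by
      have := Complex.norm_le_abs_re_add_abs_im w
      rw [hwre] at this
      linarith
    have hN2 : ‖(z n : ℂ)‖ ≤ 3 * (primorial m : ℝ) ^ 2 + (2 + D) + (H n + (‖p‖ + 1)) := by
      have h4 : ‖(z n : ℂ)‖ ≤ ‖(B : ℂ)‖ + ‖(z n : ℂ) - (B : ℂ)‖ := by
        have := norm_add_le (B : ℂ) ((z n : ℂ) - (B : ℂ))
        simpa using this
      linarith
    have hest := line_est m D (H n) (‖p‖ + 1) ‖(z n : ℂ)‖ (primorial m : ℝ) hD (hH0 n) (by linarith)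
      (norm_nonneg _) hP1 hP4 hN2 (hnear n) hm1
    have hwsq : ‖w‖ ^ 2 ≤ m := by
      have e1 : ‖w‖ ^ 2 = |w.re| ^ 2 + |w.im| ^ 2 := by
        rw [sq_abs, sq_abs, ← Complex.normSq_eq_norm_sq, Complex.normSq_apply]; ring
      have e2 : |w.re| ≤ 2 + D := by rw [hwre]; exact h2
      have e3 := abs_nonneg w.re
      have e4 := abs_nonneg w.im
      rw [e1]
      nlinarith
    have hbig : (m : ℝ) < ‖(z n : ℂ)‖ ^ 2 := by
      have h4 : |s n| ≤ ‖(z n : ℂ)‖ := by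
        rw [← norm_conj hv (z n : ℂ)]; exact Complex.abs_re_le_norm _
      have h5 : (0:ℝ) ≤ m := Nat.cast_nonneg m
      nlinarith
    refine hA4 (z n) hbig ?_ (hpr n)
    rcases hB with rfl | rfl
    · left
      rw [← hwn]
      exact ⟨hw1, hwsq⟩
    · right
      have e5 : (z n : ℂ) - ((-A : GaussianInt) : ℂ) = (z n : ℂ) + (A : ℂ) := by
        rw [GaussianInt.toComplex_neg, sub_neg_eq_add]
      rw [e5] at hwn
      rw [← hwn]
      exact ⟨hw1, hwsq⟩
  have hsstep : ∀ n, |s (n + 1) - s n| ≤ D := by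
    intro n
    have e1 : s (n + 1) - s n = (((z (n + 1) : ℂ) - (z n : ℂ)) * (starRingEnd ℂ) v).re := by
      simp only [hs]
      rw [sub_mul, Complex.sub_re]
    rw [e1]
    refine (Complex.abs_re_le_norm _).trans ?_
    rw [norm_conj hv]
    exact hstep n
  obtain ⟨n, hn⟩ := hunb (a.re + 2)
  have ha2 : (m : ℝ) - 1 ≤ a.re := by linarith
  have hneg : ((-A : GaussianInt) : ℂ) * (starRingEnd ℂ) v = -a := by
    rw [GaussianInt.toComplex_neg, neg_mul]
  rcases le_total 0 (s n) with h0 | h0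
  · rw [abs_of_nonneg h0] at hn
    obtain ⟨k, hk1, hk2⟩ := line_cross s D (a.re + 2)
      (fun n => by linarith [(abs_le.1 (hsstep n)).2]) (by linarith [le_abs_self (s 0)]) n hn
    refine hmoat k A (Or.inl rfl) ?_ ?_ ?_
    · rw [← ha, abs_of_nonneg (by linarith)]; linarith
    · rw [← ha, abs_of_nonneg (by linarith)]; linarith
    · rw [abs_of_nonneg (by linarith)]; linarith
  · rw [abs_of_nonpos h0] at hn
    obtain ⟨k, hk1, hk2⟩ := line_cross (fun n => -s n) D (a.re + 2)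
      (fun n => by
        have := (abs_le.1 (hsstep n)).1
        show -s (n + 1) ≤ -s n + D
        linarith) (by
        show -s 0 < a.re + 2
        linarith [neg_abs_le (s 0)]) n hn
    have hk1' : a.re + 2 ≤ -s k := hk1
    have hk2' : -s k ≤ a.re + 2 + D := hk2
    refine hmoat k (-A) (Or.inr rfl) ?_ ?_ ?_
    · rw [hneg, Complex.neg_re, abs_of_nonpos (by linarith)]; linarith
    · rw [hneg, Complex.neg_re, abs_of_nonpos (by linarith)]; linarith
    · rw [abs_of_nonpos (by linarith)]; linarith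

end Vale.Agent.P015
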