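import Mathlib

/-!
P015: prime-free neighbourhoods of multiples of primorials in the Gaussian integers, and lattice
points close to a given direction.
-/

namespace Vale.Agent.P015

open GaussianInt

/-- a Gaussian prime dividing a rational integer `n` divides a rational prime factor of `n` -/
theorem exists_nat_prime (π : GaussianInt) (hπ : Prime π) (n : ℕ) (hn : n ≠ 0)
    (h : π ∣ (n : GaussianInt)) : ∃ r : ℕ, r.Prime ∧ r ∣ n ∧ π ∣ (r : GaussianInt) := by
  have h1 : (n : GaussianInt) = (n.primeFactorsList.map (fun r : ℕ => (r : GaussianInt))).prod := by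
    conv_lhs => rw [← Nat.prod_primeFactorsList hn]
    exact map_list_prod (Nat.castRingHom GaussianInt) _
  rw [h1, hπ.dvd_prod_iff] at h
  obtain ⟨a, ha, hπa⟩ := h
  obtain ⟨r, hr, rfl⟩ := List.mem_map.1 ha
  exact ⟨r, Nat.prime_of_mem_primeFactorsList hr, Nat.dvd_of_mem_primeFactorsList hr, hπa⟩

/-- elements `A + u` with `A` a multiple of all small primes and `1 < |u|^2 ≤ m` are not prime
(unless they are small) -/
theorem not_prime (m : ℕ) (α u : GaussianInt) (h1 : 1 < u.norm) (hm : u.norm ≤ m)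
    (hbig : (m : ℤ) < (α * (primorial m : ℕ) + u).norm) :
    ¬ Prime (α * ((primorial m : ℕ) : GaussianInt) + u) := by
  intro hq
  set q : GaussianInt := α * ((primorial m : ℕ) : GaussianInt) + u with hqdef
  have hu0 : u ≠ 0 := by
    rintro rfl
    simp at h1
  have hunit : ¬ IsUnit u := by
    intro hu
    have := (Zsqrtd.norm_eq_one_iff' (by norm_num : (-1 : ℤ) ≤ 0) u).2 hu
    omega
  obtain ⟨π, hπi, hπu⟩ := WfDvdMonoid.exists_irreducible_factor hunit hu0
  have hπ : Prime π := hπi.prime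
  have hNπ : 0 < π.norm := GaussianInt.norm_pos.2 hπ.ne_zero
  have hNle : π.norm ≤ u.norm := by
    obtain ⟨c, hc⟩ := hπu
    have hc0 : c ≠ 0 := by
      rintro rfl
      exact hu0 (by rw [hc, mul_zero])
    have hcn : 0 < c.norm := GaussianInt.norm_pos.2 hc0
    rw [hc, Zsqrtd.norm_mul]
    nlinarith
  have hπn : π ∣ ((π.norm.natAbs : ℕ) : GaussianInt) := by
    refine ⟨star π, ?_⟩
    have h2 := Zsqrtd.norm_eq_mul_conj π
    have h3 : ((π.norm.natAbs : ℕ) : ℤ) = π.norm := Int.natAbs_of_nonneg hNπ.le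
    rw [← h2]
    calc ((π.norm.natAbs : ℕ) : GaussianInt) = (((π.norm.natAbs : ℕ) : ℤ) : GaussianInt) :=
          (Int.cast_natCast _).symm
      _ = ((π.norm : ℤ) : GaussianInt) := by rw [h3]
  obtain ⟨r, hr, hrn, hπr⟩ := exists_nat_prime π hπ π.norm.natAbs (by omega) hπn
  have hrm : r ≤ m := by
    have h2 := Nat.le_of_dvd (by omega) hrn
    omega
  have hrP : r ∣ primorial m := hr.dvd_primorial_iff.2 hrm
  have hπP : π ∣ ((primorial m : ℕ) : GaussianInt) :=
    hπr.trans (Nat.cast_dvd_cast hrP)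
  have hπq : π ∣ q := dvd_add (hπP.mul_left α) hπu
  have hass : Associated π q := hπ.associated_of_dvd hq hπq
  have hqπ : q ∣ π := hass.symm.dvd
  obtain ⟨c, hc⟩ := hqπ
  have hc0 : c ≠ 0 := by
    rintro rfl
    exact hπ.ne_zero (by rw [hc, mul_zero])
  have hcn : 0 < c.norm := GaussianInt.norm_pos.2 hc0
  have hqn : 0 ≤ q.norm := GaussianInt.norm_nonneg q
  have h5 : π.norm = q.norm * c.norm := by rw [hc, Zsqrtd.norm_mul]
  nlinarith

/-- Dirichlet: lattice points close to a given direction -/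
theorem dirichlet (v : ℂ) (hv : ‖v‖ = 1) (n : ℕ) (hn : 0 < n) :
    ∃ α : GaussianInt, α ≠ 0 ∧ ‖(α : ℂ)‖ ≤ 3 * n ∧
      |((α : ℂ) * (starRingEnd ℂ) v).im| ≤ 1 / n := by
  have hnR : (1:ℝ) ≤ n := by exact_mod_cast hn
  have hre : |v.re| ≤ 1 := by rw [← hv]; exact Complex.abs_re_le_norm v
  have him : |v.im| ≤ 1 := by rw [← hv]; exact Complex.abs_im_le_norm v
  have hne : v ≠ 0 := by
    rintro rfl
    simp at hv
  -- common estimate
  have key : ∀ x y : ℝ, x ≠ 0 → |x| ≤ 1 → |y| ≤ |x| → ∃ j k : ℤ, 0 < k ∧ |(k:ℝ)| ≤ n ∧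
      |(j : ℝ)| ≤ 2 * n ∧ |(k:ℝ) * y - j * x| ≤ 1 / n := by
    intro x y hx hx1 hyx
    obtain ⟨j, k, hk0, hkn, hjk⟩ := Real.exists_int_int_abs_mul_sub_le (y / x) hn
    have hk0' : (0:ℝ) < k := by exact_mod_cast hk0
    have hkn' : (k:ℝ) ≤ n := by exact_mod_cast hkn
    have h1 : |y / x| ≤ 1 := by
      rw [abs_div]
      exact div_le_one_of_le₀ hyx (abs_nonneg _)
    have h2 : (1:ℝ) / (n + 1) ≤ 1 / n := by
      apply one_div_le_one_div_of_le <;> linarith
    have h3 : (1:ℝ) / n ≤ 1 := by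
      rw [div_le_one (by linarith)]; exact hnR
    refine ⟨j, k, hk0, by rw [abs_of_pos hk0']; exact hkn', ?_, ?_⟩
    · have h4 : |(j:ℝ)| ≤ |(k:ℝ) * (y / x)| + |(k:ℝ) * (y / x) - j| := by
        have := abs_sub_abs_le_abs_sub ((j:ℝ)) ((k:ℝ) * (y / x))
        rw [abs_sub_comm] at this
        linarith
      have h5 : |(k:ℝ) * (y / x)| ≤ n := by
        rw [abs_mul, abs_of_pos hk0']
        calc (k:ℝ) * |y / x| ≤ k * 1 := mul_le_mul_of_nonneg_left h1 hk0'.le
          _ ≤ n := by linarith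
      linarith
    · have h4 : (k:ℝ) * y - j * x = x * (k * (y / x) - j) := by
        field_simp
      rw [h4, abs_mul]
      calc |x| * |(k:ℝ) * (y / x) - j| ≤ 1 * |(k:ℝ) * (y / x) - j| :=
            mul_le_mul_of_nonneg_right hx1 (abs_nonneg _)
        _ ≤ 1 / n := by rw [one_mul]; exact hjk.trans h2
  rcases le_total |v.im| |v.re| with hle | hle
  · have hx : v.re ≠ 0 := by
      intro h0
      apply hne
      rw [h0, abs_zero] at hle
      have : v.im = 0 := abs_nonpos_iff.1 hle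
      exact Complex.ext h0 this
    obtain ⟨j, k, hk0, hkn, hjn, hjk⟩ := key v.re v.im hx hre hle
    refine ⟨⟨k, j⟩, ?_, ?_, ?_⟩
    · intro h0
      have := congrArg Zsqrtd.re h0
      simp at this
      omega
    · rw [GaussianInt.toComplex_def₂]
      refine (Complex.norm_le_abs_re_add_abs_im _).trans ?_
      show |(k:ℝ)| + |(j:ℝ)| ≤ 3 * n
      linarith
    · rw [GaussianInt.toComplex_def₂]
      simp only [Complex.mul_im, Complex.conj_re, Complex.conj_im]
      rw [abs_sub_comm] at hjk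
      refine le_trans (le_of_eq ?_) hjk
      congr 1
      ring
  · have hx : v.im ≠ 0 := by
      intro h0
      apply hne
      rw [h0, abs_zero] at hle
      have : v.re = 0 := abs_nonpos_iff.1 hle
      exact Complex.ext this h0
    obtain ⟨j, k, hk0, hkn, hjn, hjk⟩ := key v.im v.re hx him hle
    refine ⟨⟨j, k⟩, ?_, ?_, ?_⟩
    · intro h0
      have := congrArg Zsqrtd.im h0
      simp at this
      omega
    · rw [GaussianInt.toComplex_def₂]
      refine (Complex.norm_le_abs_re_add_abs_im _).trans ?_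
      show |(j:ℝ)| + |(k:ℝ)| ≤ 3 * n
      linarith
    · rw [GaussianInt.toComplex_def₂]
      simp only [Complex.mul_im, Complex.conj_re, Complex.conj_im]
      refine le_trans (le_of_eq ?_) hjk
      congr 1
      ring

end Vale.Agent.P015
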